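import Vale.Agent.P125.Full.Defs

/-!
P125: consequences of spreading invariance: collapsing the outer parts of a vector by averaging
over shifts, passing to block averages, and choosing a block length for which averaging of the
alternating pattern costs only a factor `2`.
-/

namespace Vale.Agent.P125.Full

open Finset

/-- The unit vector. -/
noncomputable abbrev δ (i : ℕ) : ℕ →₀ ℝ := Finsupp.single i 1

/-- The sum of the coefficients. -/
noncomputable def tot : (ℕ →₀ ℝ) →ₗ[ℝ] ℝ := Finsupp.linearCombination ℝ fun _ => (1 : ℝ)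

lemma tot_eq_sum (c : ℕ →₀ ℝ) : tot c = c.sum fun _ a => a := by
  simp [tot, Finsupp.linearCombination_apply]

@[simp] lemma tot_δ (i : ℕ) : tot (δ i) = 1 := by
  simp [tot]

/-- Translation. -/
noncomputable def sh (k : ℕ) : (ℕ →₀ ℝ) →ₗ[ℝ] ℕ →₀ ℝ := Finsupp.lmapDomain ℝ ℝ (fun i => i + k)

@[simp] lemma sh_δ (k i : ℕ) : sh k (δ i) = δ (i + k) := by
  simp [sh]

lemma sh_single (k i : ℕ) (a : ℝ) : sh k (Finsupp.single i a) = Finsupp.single (i + k) a := by
  simp [sh]

lemma sh_sh (j k : ℕ) (c : ℕ →₀ ℝ) : sh k (sh j c) = sh (j + k) c := by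
  simp only [sh, Finsupp.lmapDomain_apply, ← Finsupp.mapDomain_comp]
  refine Finsupp.mapDomain_congr fun i _ => ?_
  simp [add_assoc]

/-- The average of the first `W` unit vectors. -/
noncomputable def unif (W : ℕ) : ℕ →₀ ℝ := (W : ℝ)⁻¹ • ∑ Q ∈ range W, δ Q

variable (S : Spreading)

namespace Spreading

lemma N_δ (i : ℕ) : S.N (δ i) ≤ 1 := S.single_le i

lemma N_sum_le {ι : Type*} (s : Finset ι) (g : ι → ℕ →₀ ℝ) :
    S.N (∑ i ∈ s, g i) ≤ ∑ i ∈ s, S.N (g i) :=
  Finset.le_sum_of_subadditive _ (map_zero S.N).le (fun a b => map_add_le_add S.N a b) s g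

lemma N_nonneg (c : ℕ →₀ ℝ) : 0 ≤ S.N c := apply_nonneg S.N c

lemma N_smul (a : ℝ) (c : ℕ →₀ ℝ) : S.N (a • c) = |a| * S.N c := by
  rw [map_smul_eq_mul, Real.norm_eq_abs]

lemma N_mapDomain {g : ℕ → ℕ} (hg : StrictMono g) (c : ℕ →₀ ℝ) :
    S.N (c.mapDomain g) = S.N c :=
  S.spread g c (hg.strictMonoOn _)

lemma N_sh (k : ℕ) (c : ℕ →₀ ℝ) : S.N (sh k c) = S.N c :=
  S.N_mapDomain (fun _ _ h => Nat.add_lt_add_right h k) c

lemma N_unif_le (W : ℕ) : S.N (unif W) ≤ 1 := by
  rw [unif, S.N_smul, abs_inv, Nat.abs_cast]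
  rcases Nat.eq_zero_or_pos W with rfl | hW
  · simp
  · rw [inv_mul_le_iff₀ (by exact_mod_cast hW), mul_one]
    refine (S.N_sum_le _ _).trans ((sum_le_sum fun i _ => S.N_δ i).trans ?_)
    simp

/-- Averaging the translates of a vector leaves only its total. -/
lemma avg_shift_near (c : ℕ →₀ ℝ) (W : ℕ) :
    S.N ((W : ℝ)⁻¹ • (∑ Q ∈ range W, sh Q c) - tot c • unif W)
      ≤ (c.sum fun i a => |a| * (2 * i)) / W := by
  have key : ∀ i : ℕ, S.N (∑ Q ∈ range W, δ (i + Q) - ∑ Q ∈ range W, δ Q) ≤ 2 * i := by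
    intro i
    have h1 : (∑ Q ∈ range i, δ Q) + ∑ Q ∈ range W, δ (i + Q)
        = (∑ Q ∈ range W, δ Q) + ∑ Q ∈ range i, δ (W + Q) := by
      rw [← sum_range_add (fun Q => δ Q), ← sum_range_add (fun Q => δ Q), add_comm]
    have h2 : ∑ Q ∈ range W, δ (i + Q) - ∑ Q ∈ range W, δ Q
        = ∑ Q ∈ range i, δ (W + Q) - ∑ Q ∈ range i, δ Q := by
      rw [sub_eq_sub_iff_add_eq_add, add_comm (∑ Q ∈ range W, δ (i + Q)), h1]
      abel
    rw [h2]
    refine (map_sub_le_add S.N _ _).trans ?_
    have h3 : S.N (∑ Q ∈ range i, δ (W + Q)) ≤ i :=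
      (S.N_sum_le _ _).trans ((sum_le_sum fun Q _ => S.N_δ _).trans (by simp))
    have h4 : S.N (∑ Q ∈ range i, δ Q) ≤ i :=
      (S.N_sum_le _ _).trans ((sum_le_sum fun Q _ => S.N_δ _).trans (by simp))
    linarith
  have expand : (W : ℝ)⁻¹ • (∑ Q ∈ range W, sh Q c) - tot c • unif W
      = (W : ℝ)⁻¹ • ∑ i ∈ c.support,
          c i • (∑ Q ∈ range W, δ (i + Q) - ∑ Q ∈ range W, δ Q) := by
    have e1 : ∀ Q, sh Q c = ∑ i ∈ c.support, c i • δ (i + Q) := by
      intro Q
      simp [sh, Finsupp.mapDomain, Finsupp.sum]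
    have e2 : tot c = ∑ i ∈ c.support, c i := by rw [tot_eq_sum]; rfl
    simp only [e1, e2, unif, smul_sub, sum_sub_distrib, smul_sum]
    congr 1
    · rw [sum_comm]
    · simp only [smul_smul, mul_comm]
      rw [sum_comm]
      simp only [mul_sum, sum_smul]
  rw [expand, S.N_smul, abs_inv, Nat.abs_cast, div_eq_inv_mul, Finsupp.sum]
  refine mul_le_mul_of_nonneg_left ((S.N_sum_le _ _).trans (sum_le_sum fun i _ => ?_))
    (by positivity)
  rw [S.N_smul]
  exact mul_le_mul_of_nonneg_left (key i) (abs_nonneg _)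

/-- The average over shifts of a spreading image is no larger. -/
lemma N_avg_le (c : ℕ →₀ ℝ) (W : ℕ) (g : ℕ → ℕ → ℕ) (hg : ∀ Q, StrictMono (g Q)) :
    S.N ((W : ℝ)⁻¹ • ∑ Q ∈ range W, c.mapDomain (g Q)) ≤ S.N c := by
  rcases Nat.eq_zero_or_pos W with rfl | hW
  · simp
  rw [S.N_smul, abs_inv, Nat.abs_cast, inv_mul_le_iff₀ (by exact_mod_cast hW)]
  refine (S.N_sum_le _ _).trans (le_of_eq ?_)
  simp [S.N_mapDomain (hg _)]

lemma tendsto_div_atTop (C : ℝ) :
    Filter.Tendsto (fun W : ℕ => C / W) Filter.atTop (nhds 0) :=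
  tendsto_const_div_atTop_nhds_zero_nat C

/-- A vector dominates its middle part up to the totals of the outer parts. -/
lemma collapse_middle (L M R : ℕ →₀ ℝ) (lo hi : ℕ) (hlh : lo ≤ hi + 1)
    (hL : ∀ i ∈ L.support, i < lo) (hM : ∀ i ∈ M.support, lo ≤ i ∧ i ≤ hi)
    (hR : ∀ i ∈ R.support, hi < i) :
    S.N M ≤ S.N (L + M + R) + |tot L| + |tot R| := by
  set CL := L.sum fun i a => |a| * (2 * (i : ℝ))
  set CR := R.sum fun i a => |a| * (2 * (i : ℝ))
  have key : ∀ W : ℕ, 0 < W →
      S.N M - (S.N (L + M + R) + |tot L| + |tot R|) ≤ CL / W + CR / W := by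
    intro W hW
    set V := W + lo + 1 with hV
    let g : ℕ → ℕ → ℕ := fun Q i =>
      if i < lo then i + min Q (W - 1) else if i ≤ hi then i + V else i + (2 * V + min Q (W - 1))
    have hg : ∀ Q, StrictMono (g Q) := by
      intro Q i j hij
      simp only [g]
      split_ifs <;> omega
    have hsplit : ∀ Q, (L + M + R).mapDomain (g Q)
        = sh (min Q (W - 1)) L + sh V M + sh (2 * V) (sh (min Q (W - 1)) R) := by
      intro Q
      rw [Finsupp.mapDomain_add, Finsupp.mapDomain_add, sh_sh]
      refine congrArg₂ (· + ·) (congrArg₂ (· + ·) ?_ ?_) ?_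
      · refine Finsupp.mapDomain_congr fun i hi' => ?_
        simp [g, hL i hi']
      · refine Finsupp.mapDomain_congr fun i hi' => ?_
        have := hM i hi'
        simp only [g]
        split_ifs <;> omega
      · refine Finsupp.mapDomain_congr fun i hi' => ?_
        have := hR i hi'
        simp only [g]
        split_ifs <;> omega
    have hsum : (W : ℝ)⁻¹ • ∑ Q ∈ range W, (L + M + R).mapDomain (g Q)
        = (W : ℝ)⁻¹ • (∑ Q ∈ range W, sh Q L) + sh V M
          + sh (2 * V) ((W : ℝ)⁻¹ • ∑ Q ∈ range W, sh Q R) := by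
      have : ∀ Q ∈ range W, (L + M + R).mapDomain (g Q)
          = sh Q L + sh V M + sh (2 * V) (sh Q R) := by
        intro Q hQ
        rw [hsplit, show min Q (W - 1) = Q by have := mem_range.1 hQ; omega]
      rw [sum_congr rfl this, sum_add_distrib, sum_add_distrib, smul_add, smul_add, sum_const,
        card_range, map_smul, map_sum, ← Nat.cast_smul_eq_nsmul ℝ, smul_smul,
        inv_mul_cancel₀ (by exact_mod_cast hW.ne'), one_smul]
    have hle := S.N_avg_le (L + M + R) W g hg
    rw [hsum] at hle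
    set A := (W : ℝ)⁻¹ • ∑ Q ∈ range W, sh Q L
    set B := (W : ℝ)⁻¹ • ∑ Q ∈ range W, sh Q R
    have hA : S.N A ≤ |tot L| + CL / W := by
      have h1 := S.avg_shift_near L W
      have h2 : S.N (tot L • unif W) ≤ |tot L| := by
        rw [S.N_smul]
        exact mul_le_of_le_one_right (abs_nonneg _) (S.N_unif_le W)
      have h3 := map_add_le_add S.N (A - tot L • unif W) (tot L • unif W)
      rw [sub_add_cancel] at h3
      linarith
    have hB : S.N B ≤ |tot R| + CR / W := by
      have h1 := S.avg_shift_near R W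
      have h2 : S.N (tot R • unif W) ≤ |tot R| := by
        rw [S.N_smul]
        exact mul_le_of_le_one_right (abs_nonneg _) (S.N_unif_le W)
      have h3 := map_add_le_add S.N (B - tot R • unif W) (tot R • unif W)
      rw [sub_add_cancel] at h3
      linarith
    have h4 : S.N (sh V M) ≤ S.N (A + sh V M + sh (2 * V) B) + S.N A + S.N (sh (2 * V) B) := by
      have h5 : sh V M = (A + sh V M + sh (2 * V) B) - A - sh (2 * V) B := by abel
      conv_lhs => rw [h5]
      refine (map_sub_le_add S.N _ _).trans ?_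
      gcongr
      exact map_sub_le_add S.N _ _
    rw [S.N_sh, S.N_sh] at h4
    linarith
  have lim : Filter.Tendsto (fun W : ℕ => CL / W + CR / W) Filter.atTop (nhds 0) := by
    simpa using (tendsto_div_atTop CL).add (tendsto_div_atTop CR)
  have := ge_of_tendsto lim (Filter.eventually_atTop.2 ⟨1, fun W hW => key W hW⟩)
  linarith

/-- A vector which is cut into two parts of totals `-s` and `s` has norm at least `s * η`. -/
lemma collapse_cut (L R : ℕ →₀ ℝ) (lo : ℕ) {s : ℝ} (hs : 0 ≤ s)
    (hL : ∀ i ∈ L.support, i < lo) (hR : ∀ i ∈ R.support, lo ≤ i)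
    (tL : tot L = -s) (tR : tot R = s) :
    s * S.η ≤ S.N (L + R) := by
  set CL := L.sum fun i a => |a| * (2 * (i : ℝ))
  set CR := R.sum fun i a => |a| * (2 * (i : ℝ))
  have key : ∀ W : ℕ, 0 < W → s * S.η - S.N (L + R) ≤ CL / W + CR / W := by
    intro W hW
    set V := W + lo with hV
    let g : ℕ → ℕ → ℕ := fun Q i =>
      if i < lo then i + min Q (W - 1) else i + (V + min Q (W - 1))
    have hg : ∀ Q, StrictMono (g Q) := by
      intro Q i j hij
      simp only [g]
      split_ifs <;> omega
    have hterm : ∀ Q ∈ range W, (L + R).mapDomain (g Q) = sh Q L + sh V (sh Q R) := by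
      intro Q hQ
      have := mem_range.1 hQ
      rw [Finsupp.mapDomain_add, sh_sh]
      refine congrArg₂ (· + ·) ?_ ?_
      · refine Finsupp.mapDomain_congr fun i hi' => ?_
        have := hL i hi'
        simp only [g]
        split_ifs <;> omega
      · refine Finsupp.mapDomain_congr fun i hi' => ?_
        have := hR i hi'
        simp only [g]
        split_ifs <;> omega
    have hle := S.N_avg_le (L + R) W g hg
    rw [sum_congr rfl hterm, sum_add_distrib, smul_add, ← map_sum, ← map_smul] at hle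
    set A := (W : ℝ)⁻¹ • ∑ Q ∈ range W, sh Q L
    set B := (W : ℝ)⁻¹ • ∑ Q ∈ range W, sh Q R
    have h1 := S.avg_shift_near L W
    have h2 := S.avg_shift_near R W
    rw [tL] at h1
    rw [tR] at h2
    have hu : ∀ i, i ∈ (unif W).support → i < W := by
      intro i hi
      by_contra hc
      apply Finsupp.mem_support_iff.1 hi
      simp only [unif, Finsupp.smul_apply, Finsupp.finsetSum_apply, smul_eq_mul]
      rw [sum_eq_zero fun Q hQ => Finsupp.single_eq_of_ne (by have := mem_range.1 hQ; omega),
        mul_zero]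
    have htot : tot (unif W) = 1 := by
      simp [unif, hW.ne']
    have hnn : ∀ i, 0 ≤ unif W i := by
      intro i
      simp only [unif, Finsupp.smul_apply, Finsupp.finsetSum_apply, smul_eq_mul]
      refine mul_nonneg (by positivity) (sum_nonneg fun Q _ => ?_)
      rcases eq_or_ne i Q with rfl | h
      · simp
      · simp [Finsupp.single_eq_of_ne h]
    have hsep : S.η ≤ S.N (unif W - sh V (unif W)) := by
      have e : sh V (unif W) = (unif W).mapDomain (fun i => i + V) := rfl
      refine S.sep W _ _ hnn (fun i => ?_) (by rw [← tot_eq_sum, htot]) ?_ hu ?_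
      · rw [e, Finsupp.mapDomain, Finsupp.sum_apply]
        exact Finsupp.sum_nonneg fun j _ => by
          rcases eq_or_ne i (j + V) with h | h
          · simp [h, hnn j]
          · simp [Finsupp.single_eq_of_ne h]
      · rw [← tot_eq_sum, e]
        simp [tot, Finsupp.linearCombination_mapDomain, Function.comp_def]
        simpa [tot] using htot
      · intro i hi
        rw [e] at hi
        obtain ⟨j, -, rfl⟩ := mem_image.1 (Finsupp.mapDomain_support hi)
        omega
    have heq : s • (unif W - sh V (unif W))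
        = (A - (-s) • unif W) + sh V (B - s • unif W) - (A + sh V B) := by
      simp only [map_sub, map_smul, smul_sub, neg_smul]
      abel
    have h3 : S.N (s • (unif W - sh V (unif W))) ≤ CL / W + CR / W + S.N (L + R) := by
      rw [heq]
      refine (map_sub_le_add S.N _ _).trans (add_le_add ?_ hle)
      refine (map_add_le_add S.N _ _).trans (add_le_add h1 ?_)
      rw [S.N_sh]
      exact h2
    rw [S.N_smul, abs_of_nonneg hs] at h3
    nlinarith [mul_le_mul_of_nonneg_left hsep hs]
  have lim : Filter.Tendsto (fun W : ℕ => CL / W + CR / W) Filter.atTop (nhds 0) := by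
    simpa using (tendsto_div_atTop CL).add (tendsto_div_atTop CR)
  have := ge_of_tendsto lim (Filter.eventually_atTop.2 ⟨1, fun W hW => key W hW⟩)
  linarith

end Spreading

/-! ### Blocks -/

/-- Replace each unit vector by a block average of length `m`. -/
noncomputable def blk (m : ℕ) : (ℕ →₀ ℝ) →ₗ[ℝ] ℕ →₀ ℝ :=
  Finsupp.linearCombination ℝ fun i => (m : ℝ)⁻¹ • ∑ l ∈ range m, δ (i * m + l)

lemma blk_δ (m i : ℕ) : blk m (δ i) = (m : ℝ)⁻¹ • ∑ l ∈ range m, δ (i * m + l) := by
  simp [blk]

lemma blk_apply {m : ℕ} (hm : 0 < m) (c : ℕ →₀ ℝ) (n : ℕ) :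
    blk m c n = c (n / m) / m := by
  induction c using Finsupp.induction_linear with
  | zero => simp
  | add f g hf hg => simp [hf, hg, add_div]
  | single i a =>
    have hsum : (∑ l ∈ range m, (δ (i * m + l)) n) = if i = n / m then (1 : ℝ) else 0 := by
      split_ifs with h
      · subst h
        rw [sum_eq_single (n % m)]
        · rw [show n / m * m + n % m = n by rw [mul_comm]; exact Nat.div_add_mod n m]
          simp
        · intro l _ hl
          refine Finsupp.single_eq_of_ne fun e => hl ?_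
          have := Nat.div_add_mod n m
          rw [mul_comm] at this
          omega
        · intro h
          exact absurd (mem_range.2 (Nat.mod_lt _ hm)) h
      · refine sum_eq_zero fun l hl => Finsupp.single_eq_of_ne fun e => h ?_
        rw [e, mul_comm i m, Nat.mul_add_div hm, Nat.div_eq_of_lt (mem_range.1 hl), add_zero]
    rw [blk, Finsupp.linearCombination_single]
    rw [Finsupp.smul_apply, Finsupp.smul_apply, Finsupp.finsetSum_apply, hsum,
      Finsupp.single_apply, smul_eq_mul, smul_eq_mul]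
    split_ifs <;> ring

lemma tot_blk {m : ℕ} (hm : 0 < m) (c : ℕ →₀ ℝ) : tot (blk m c) = tot c := by
  induction c using Finsupp.induction_linear with
  | zero => simp
  | add f g hf hg => simp [hf, hg]
  | single i a =>
    simp [blk, tot, hm.ne']

/-- The seminorm of block averages. -/
noncomputable def Spreading.block (m : ℕ) (hm : 0 < m) : Spreading where
  N := S.N.comp (blk m)
  η := S.η
  η_pos := S.η_pos
  single_le i := by
    rw [Seminorm.comp_apply, blk_δ, S.N_smul, abs_inv, Nat.abs_cast,
      inv_mul_le_iff₀ (by exact_mod_cast hm), mul_one]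
    exact (S.N_sum_le _ _).trans ((sum_le_sum fun l _ => S.N_δ _).trans (by simp))
  spread g c hg := by
    rw [Seminorm.comp_apply, Seminorm.comp_apply]
    have e : blk m (c.mapDomain g) = (blk m c).mapDomain fun n => g (n / m) * m + n % m := by
      clear hg
      induction c using Finsupp.induction_linear with
      | zero => simp
      | add f f' hf hf' => simp [Finsupp.mapDomain_add, hf, hf']
      | single i a =>
        rw [Finsupp.mapDomain_single]
        simp only [blk, Finsupp.linearCombination_single, Finsupp.mapDomain_smul,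
          Finsupp.mapDomain_finsetSum, Finsupp.mapDomain_single]
        refine congrArg _ (congrArg _ (sum_congr rfl fun l hl => ?_))
        have hl' := mem_range.1 hl
        rw [mul_comm i m, Nat.mul_add_div hm, Nat.mul_add_mod, Nat.div_eq_of_lt hl',
          Nat.mod_eq_of_lt hl', add_zero]
    rw [e]
    refine S.spread _ _ fun x hx y hy hxy => ?_
    have mem : ∀ z, z ∈ ((blk m c).support : Set ℕ) → z / m ∈ (c.support : Set ℕ) := by
      intro z hz
      simp only [Finset.mem_coe, Finsupp.mem_support_iff, blk_apply hm] at hz ⊢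
      exact fun h => hz (by simp [h])
    rcases (Nat.div_le_div_right (c := m) hxy.le).lt_or_eq with h | h
    · have h1 := hg (mem x hx) (mem y hy) h
      show g (x / m) * m + x % m < g (y / m) * m + y % m
      have h2 := Nat.mod_lt x hm
      have h3 : (g (x / m) + 1) * m ≤ g (y / m) * m := Nat.mul_le_mul_right m h1
      rw [Nat.add_mul, one_mul] at h3
      omega
    · show g (x / m) * m + x % m < g (y / m) * m + y % m
      have hx' := Nat.div_add_mod x m
      have hy' := Nat.div_add_mod y m
      rw [h] at hx' ⊢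
      omega
  sep b u v hu hv hu1 hv1 hub hvb := by
    rw [Seminorm.comp_apply, map_sub]
    refine S.sep (b * m) _ _ (fun i => ?_) (fun i => ?_) ?_ ?_ ?_ ?_
    · rw [blk_apply hm]; exact div_nonneg (hu _) (by positivity)
    · rw [blk_apply hm]; exact div_nonneg (hv _) (by positivity)
    · rw [← tot_eq_sum, tot_blk hm, tot_eq_sum, hu1]
    · rw [← tot_eq_sum, tot_blk hm, tot_eq_sum, hv1]
    · intro i hi
      have : u (i / m) ≠ 0 := fun h => (Finsupp.mem_support_iff.1 hi) (by simp [blk_apply hm, h])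
      exact (Nat.div_lt_iff_lt_mul hm).1 (hub _ (Finsupp.mem_support_iff.2 this))
    · intro i hi
      have : v (i / m) ≠ 0 := fun h => (Finsupp.mem_support_iff.1 hi) (by simp [blk_apply hm, h])
      exact (Nat.le_div_iff_mul_le hm).1 (hvb _ (Finsupp.mem_support_iff.2 this))

lemma Spreading.MT_block {p K : ℝ} (m : ℕ) (hm : 0 < m) (h : MT (fun c => S.N c) p K) :
    MT (fun c => (S.block m hm).N c) p K := by
  intro Ω _ _ π P h1 h2 h3 h4 h5 f t ht
  have := h Ω π P h1 h2 h3 h4 h5 (fun x => blk m (f x)) t ht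
  simpa [Spreading.block, map_sub] using this

/-! ### Alternating patterns -/

/-- `k` periods, each `T` times `+1` followed by `T` times `-1`. -/
noncomputable def pat (T k : ℕ) : ℕ →₀ ℝ :=
  ∑ l ∈ range k, ∑ s ∈ range T, (δ (2 * T * l + s) - δ (2 * T * l + T + s))

/-- The normalised norm of the pattern. -/
noncomputable def Spreading.q (T k : ℕ) : ℝ := S.N (pat T k) / T

lemma sum_range_mul' {M : Type*} [AddCommMonoid M] (g : ℕ → M) (T m : ℕ) :
    ∑ n ∈ range (T * m), g n = ∑ s ∈ range T, ∑ r ∈ range m, g (s * m + r) := by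
  induction T with
  | zero => simp
  | succ T ih => rw [Nat.succ_mul, sum_range_add, ih, sum_range_succ]

lemma blk_pat {m : ℕ} (T k : ℕ) : blk m (pat T k) = (m : ℝ)⁻¹ • pat (T * m) k := by
  simp only [pat, map_sum, map_sub, blk_δ, smul_sum, smul_sub, sum_sub_distrib, sum_range_mul']
  congr 1
  · refine sum_congr rfl fun l _ => sum_congr rfl fun s _ => sum_congr rfl fun r _ => ?_
    rw [show (2 * T * l + s) * m + r = 2 * (T * m) * l + (s * m + r) by ring]
  · refine sum_congr rfl fun l _ => sum_congr rfl fun s _ => sum_congr rfl fun r _ => ?_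
    rw [show (2 * T * l + T + s) * m + r = 2 * (T * m) * l + T * m + (s * m + r) by ring]

lemma Spreading.q_block (m : ℕ) (hm : 0 < m) (T k : ℕ) :
    (S.block m hm).q T k = S.q (T * m) k := by
  simp only [Spreading.q, Spreading.block, Seminorm.comp_apply, blk_pat, S.N_smul, abs_inv,
    Nat.abs_cast, Nat.cast_mul]
  ring

lemma Spreading.q_le (T k : ℕ) : S.q T k ≤ 2 * k := by
  rcases Nat.eq_zero_or_pos T with rfl | hT
  · simp [Spreading.q]
  rw [Spreading.q, div_le_iff₀ (by exact_mod_cast hT)]
  refine (S.N_sum_le _ _).trans ((sum_le_sum fun l _ => (S.N_sum_le _ _).trans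
    (sum_le_sum fun s _ => (map_sub_le_add S.N _ _).trans
      (add_le_add (S.N_δ _) (S.N_δ _)))).trans ?_)
  simp only [sum_const, card_range, nsmul_eq_mul]
  linarith

lemma Spreading.η_le_q {T k : ℕ} (hT : 0 < T) (hk : 0 < k) : S.η ≤ S.q T k := by
  obtain ⟨k, rfl⟩ : ∃ j, k = j + 1 := ⟨k - 1, by omega⟩
  rw [Spreading.q, le_div_iff₀ (by exact_mod_cast hT)]
  set L : ℕ →₀ ℝ := -∑ s ∈ range T, δ (T + s) with hLdef
  set first : ℕ →₀ ℝ := ∑ s ∈ range T, δ s with hF
  set rest : ℕ →₀ ℝ := ∑ l ∈ range k, ∑ s ∈ range T,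
      (δ (2 * T * (l + 1) + s) - δ (2 * T * (l + 1) + T + s))
  have hsplit : pat T (k + 1) = 0 + (first + L) + rest := by
    simp only [pat, sum_range_succ', mul_zero, zero_add, sum_sub_distrib, hF, hLdef, rest]
    abel
  have supp_sum : ∀ (s : Finset ℕ) (g : ℕ → ℕ), ∀ i ∈ (∑ x ∈ s, δ (g x)).support,
      ∃ x ∈ s, i = g x := by
    intro s g i hi
    obtain ⟨x, hx, hx'⟩ := mem_biUnion.1 (Finsupp.support_finsetSum hi)
    exact ⟨x, hx, mem_singleton.1 (Finsupp.support_single_subset hx')⟩
  have hmid : (T : ℝ) * S.η ≤ S.N (first + L) := by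
    have h1 : S.N (first + L) = S.N (L + first) := by rw [add_comm]
    have h2 := S.collapse_cut (-first) (-L) T (by positivity : (0 : ℝ) ≤ T)
      (fun i hi => by
        rw [Finsupp.support_neg] at hi
        obtain ⟨x, hx, rfl⟩ := supp_sum _ _ i hi
        exact mem_range.1 hx)
      (fun i hi => by
        rw [hLdef, neg_neg] at hi
        obtain ⟨x, hx, rfl⟩ := supp_sum _ _ i hi
        omega)
      (by simp [hF]) (by simp [hLdef])
    rw [← neg_add, map_neg_eq_map] at h2
    exact h2
  have h3 := S.collapse_middle 0 (first + L) rest 0 (2 * T - 1) (by omega) (by simp)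
    (fun i hi => by
      refine ⟨Nat.zero_le _, ?_⟩
      rcases mem_union.1 (Finsupp.support_add hi) with h | h
      · obtain ⟨x, hx, rfl⟩ := supp_sum _ _ i h
        have := mem_range.1 hx
        omega
      · rw [hLdef, Finsupp.support_neg] at h
        obtain ⟨x, hx, rfl⟩ := supp_sum _ _ i h
        have := mem_range.1 hx
        omega)
    (fun i hi => by
      obtain ⟨l, _, hl⟩ := mem_biUnion.1 (Finsupp.support_finsetSum hi)
      obtain ⟨s, _, hs⟩ := mem_biUnion.1 (Finsupp.support_finsetSum hl)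
      have hlb : 2 * T ≤ 2 * T * (l + 1) := Nat.le_mul_of_pos_right _ (by omega)
      rcases mem_union.1 (Finsupp.support_sub hs) with h | h <;>
      · have := mem_singleton.1 (Finsupp.support_single_subset h)
        omega)
  have t0 : tot rest = 0 := by simp [rest]
  rw [← hsplit] at h3
  simp only [map_zero, abs_zero, t0, add_zero] at h3
  linarith

lemma Spreading.q_double (k : ℕ) : S.q 1 (2 * k) ≤ 2 * S.q 1 k := by
  have e : pat 1 (2 * k) = pat 1 k + sh (2 * k) (pat 1 k) := by
    simp only [pat, sum_range_one, map_sum, map_sub, sh_δ, two_mul k, sum_range_add, mul_one]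
    congr 1
    refine sum_congr rfl fun l _ => ?_
    congr 2 <;> ring
  simp only [Spreading.q, Nat.cast_one, div_one, e]
  refine (map_add_le_add S.N _ _).trans ?_
  rw [S.N_sh]
  linarith

/-- Some block length makes averaging `T`-fold cost at most a factor `2`. -/
lemma Spreading.exists_block {T k : ℕ} (hT : 0 < T) (hk : 0 < k) :
    ∃ (m : ℕ) (hm : 0 < m), (S.block m hm).q 1 k ≤ 2 * (S.block m hm).q T k := by
  by_contra hne
  push Not at hne
  have step : ∀ j, S.q (T ^ (j + 1)) k ≤ S.q (T ^ j) k / 2 := by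
    intro j
    have := hne (T ^ j) (pow_pos hT j)
    rw [S.q_block, S.q_block, one_mul, ← pow_succ'] at this
    linarith
  have bound : ∀ j, S.η ≤ 2 * (k : ℝ) * (1 / 2) ^ j := by
    intro j
    refine (S.η_le_q (pow_pos hT j) hk).trans ?_
    induction j with
    | zero => simpa using S.q_le 1 k
    | succ j ih =>
      refine (step j).trans ?_
      rw [pow_succ (1 / 2 : ℝ)]
      linarith
  obtain ⟨j, hj⟩ := exists_pow_lt_of_lt_one
    (div_pos S.η_pos (by positivity : (0 : ℝ) < 2 * k)) (by norm_num : (1 / 2 : ℝ) < 1)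
  rw [lt_div_iff₀ (by positivity)] at hj
  linarith [bound j]

end Vale.Agent.P125.Full
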