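import Mathlib

/-!
P125: basic definitions for the theorem nontrivial Markov type implies superreflexive.
-/

namespace Vale.Agent.P125.Full

open Finset

/-- Markov type `p` with constant `K` for a norm-like function `N` on a group `V`. -/
def MT {V : Type*} [AddCommGroup V] (N : V → ℝ) (p K : ℝ) : Prop :=
  ∀ (S : Type) [Fintype S] [DecidableEq S] (π : S → ℝ) (P : Matrix S S ℝ),
    (∀ x, 0 ≤ π x) → (∑ x, π x = 1) → (∀ x y, 0 ≤ P x y) → (∀ x, ∑ y, P x y = 1) →
    (∀ x y, π x * P x y = π y * P y x) →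
    ∀ (f : S → V) (t : ℕ), 1 ≤ t →
      ∑ x, ∑ y, π x * (P ^ t) x y * N (f y - f x) ^ p ≤
        K ^ p * t * ∑ x, ∑ y, π x * P x y * N (f y - f x) ^ p

/-- A seminorm on finitely supported sequences which is invariant under spreading and which
separates the convex hulls of initial and final segments of the unit vectors. -/
structure Spreading where
  /-- the seminorm -/
  N : Seminorm ℝ (ℕ →₀ ℝ)
  /-- the separation constant -/
  η : ℝ
  η_pos : 0 < η
  single_le : ∀ i, N (Finsupp.single i 1) ≤ 1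
  spread : ∀ (g : ℕ → ℕ) (c : ℕ →₀ ℝ), StrictMonoOn g c.support →
    N (c.mapDomain g) = N c
  sep : ∀ (b : ℕ) (u v : ℕ →₀ ℝ), (∀ i, 0 ≤ u i) → (∀ i, 0 ≤ v i) →
    (u.sum fun _ a => a) = 1 → (v.sum fun _ a => a) = 1 →
    (∀ i ∈ u.support, i < b) → (∀ i ∈ v.support, b ≤ i) → η ≤ N (u - v)

section Reach

variable {X : Type*} [NormedAddCommGroup X] [NormedSpace ℝ X]

/-- Midpoints of `ε`-separated pairs, with the count raised by one. -/
def sepStep (ε : ℝ) (A : Set (X × ℝ)) : Set (X × ℝ) :=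
  {w | ∃ a ∈ A, ∃ b ∈ A, ε ≤ ‖a.1 - b.1‖ ∧
    w = ((1 / 2 : ℝ) • (a.1 + b.1), (a.2 + b.2) / 2 + 1)}

/-- Points `(z, r)` such that a finite martingale of height `N` starting at `z` stays in the unit
ball and makes, in expectation, `r` many `ε`-separated fair splittings. -/
def reach (ε : ℝ) : ℕ → Set (X × ℝ)
  | 0 => Metric.closedBall (0 : X) 1 ×ˢ {(0 : ℝ)}
  | N + 1 => convexHull ℝ (reach ε N ∪ sepStep ε (reach ε N))

/-- The expected number of separated splittings is bounded. -/
def Bounded (X : Type*) [NormedAddCommGroup X] [NormedSpace ℝ X] (ε : ℝ) : Prop :=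
  ∃ M : ℝ, ∀ N : ℕ, ∀ w ∈ reach (X := X) ε N, w.2 ≤ M

/-- An equivalent uniformly convex norm exists. -/
def HasUCNorm (X : Type*) [NormedAddCommGroup X] [NormedSpace ℝ X] : Prop :=
  ∃ (q : Seminorm ℝ X) (a b : ℝ), 0 < a ∧ 0 < b ∧ (∀ x, a * ‖x‖ ≤ q x ∧ q x ≤ b * ‖x‖) ∧
    ∀ ε : ℝ, 0 < ε → ∃ δ : ℝ, 0 < δ ∧ ∀ x y : X, q x ≤ 1 → q y ≤ 1 → ε ≤ q (x - y) →
      q ((1 / 2 : ℝ) • (x + y)) ≤ 1 - δ

end Reach

section Darts

/-- A finite weighted graph with darts: a symmetric measure on directed labelled edges. -/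
structure Darts (V E : Type) [Fintype E] where
  src : E → V
  tgt : E → V
  rev : E → E
  w : E → ℝ
  rev_rev : ∀ e, rev (rev e) = e
  src_rev : ∀ e, src (rev e) = tgt e
  w_rev : ∀ e, w (rev e) = w e
  w_nonneg : ∀ e, 0 ≤ w e
  w_sum : ∑ e, w e = 1

variable {V E : Type} [Fintype E] [DecidableEq V]

/-- The weight of a vertex. -/
def Darts.mass (D : Darts V E) (x : V) : ℝ := ∑ e, if D.src e = x then D.w e else 0

/-- The probability that the dart `e'` follows the dart `e`. -/
noncomputable def Darts.next (D : Darts V E) (e e' : E) : ℝ :=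
  if D.src e' = D.tgt e then D.w e' / D.mass (D.tgt e) else 0

/-- Expectation over the `n` darts following `e`, of a function of the whole list. -/
noncomputable def Darts.expFrom (D : Darts V E) : ℕ → E → (List E → ℝ) → ℝ
  | 0, e, G => G [e]
  | n + 1, e, G => ∑ e', D.next e e' * D.expFrom n e' (fun l => G (e :: l))

/-- Expectation over stationary paths of `n + 1` darts. -/
noncomputable def Darts.expPath (D : Darts V E) (n : ℕ) (G : List E → ℝ) : ℝ :=
  ∑ e, D.w e * D.expFrom n e G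

end Darts

end Vale.Agent.P125.Full
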