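import Vale.Agent.P125.Full.Block

/-!
P125: the periodic tree pattern.  An edge of the pattern joins two increasing tuples; a path
without backtracking nests its periods, so the sum of the edge vectors has, over many periods,
`T` times `+1` followed by `T` times `-1`.
-/

namespace Vale.Agent.P125.Full

open Finset

lemma periodic_strictMono {d L : ℕ} (hd : 0 < d) (f : ℕ → ℕ)
    (hf : ∀ r r', r < r' → r' < d → f r < f r') (hL : ∀ r < d, f r < L) :
    StrictMono fun n => n / d * L + f (n % d) := by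
  intro a b hab
  show a / d * L + f (a % d) < b / d * L + f (b % d)
  rcases (Nat.div_le_div_right (c := d) hab.le).lt_or_eq with h | h
  · have h1 : (a / d + 1) * L ≤ b / d * L := Nat.mul_le_mul_right L h
    rw [Nat.add_mul, one_mul] at h1
    have := hL _ (Nat.mod_lt a hd)
    omega
  · have ha := Nat.div_add_mod a d
    have hb := Nat.div_add_mod b d
    rw [h] at ha ⊢
    have := hf (a % d) (b % d) (by omega) (Nat.mod_lt b hd)
    omega

/-- Position, in the union of the two tuples of an edge, of the points of the first tuple. -/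
def Px (d n : ℕ) : ℕ := n / d * (2 * (d - 1)) + if n % d = 0 then 0 else d - 2 + n % d

/-- Position, in the union of the two tuples of an edge, of the points of the second tuple. -/
def Py (d n : ℕ) : ℕ := n / d * (2 * (d - 1)) + n % d

lemma Px_strictMono {d : ℕ} (hd : 2 ≤ d) : StrictMono (Px d) :=
  periodic_strictMono (by omega) (fun r => if r = 0 then 0 else d - 2 + r)
    (fun r r' h h' => by split_ifs <;> omega)
    (fun r h => by split_ifs <;> omega)

lemma Py_strictMono {d : ℕ} (hd : 2 ≤ d) : StrictMono (Py d) :=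
  periodic_strictMono (by omega) id (fun _ _ h _ => h) (fun r h => by simp only [id]; omega)

lemma Px_mul {d : ℕ} (hd : 0 < d) (i : ℕ) : Px d (i * d) = i * (2 * (d - 1)) := by
  simp [Px, Nat.mul_div_cancel i hd]

lemma Px_mul_add_one {d : ℕ} (hd : 2 ≤ d) (i : ℕ) :
    Px d (i * d + 1) = i * (2 * (d - 1)) + (d - 1) := by
  have h1 : (i * d + 1) / d = i := by
    rw [mul_comm, Nat.mul_add_div (by omega), Nat.div_eq_of_lt (by omega), add_zero]
  have h2 : (i * d + 1) % d = 1 := by
    rw [mul_comm, Nat.mul_add_mod, Nat.mod_eq_of_lt (by omega)]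
  simp only [Px, h1, h2, one_ne_zero, if_false]
  omega

lemma Py_mul_add {d : ℕ} (i : ℕ) {r : ℕ} (hr : r < d) :
    Py d (i * d + r) = i * (2 * (d - 1)) + r := by
  have h1 : (i * d + r) / d = i := by
    rw [mul_comm, Nat.mul_add_div (by omega), Nat.div_eq_of_lt hr, add_zero]
  have h2 : (i * d + r) % d = r := by
    rw [mul_comm, Nat.mul_add_mod, Nat.mod_eq_of_lt hr]
  simp only [Py, h1, h2]

/-- Darts: an orientation, a sample, and the slots of the two ends. -/
abbrev Dart (d : ℕ) (ι : Type) : Type := Bool × ι × Fin d × Fin d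

variable {d : ℕ} {ι : Type} (h : ι → ℕ → ℕ)

/-- The tuple at the first end of the edge, with slot `j`. -/
def xF (r : ι) (j : Fin d) (n : ℕ) : ℕ := h r (Px d (n + (d - j)))

/-- The tuple at the second end of the edge, with slot `j'`. -/
def yF (r : ι) (j' : Fin d) (n : ℕ) : ℕ := h r (Py d (n + (d - 1 - j')))

namespace Dart

/-- The reversed dart. -/
def rev (e : Dart d ι) : Dart d ι := (!e.1, e.2)

/-- The outgoing slot. -/
def out (e : Dart d ι) : Fin d := if e.1 then e.2.2.2 else e.2.2.1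

/-- The incoming slot. -/
def inn (e : Dart d ι) : Fin d := if e.1 then e.2.2.1 else e.2.2.2

/-- The shift of the periods. -/
def o (e : Dart d ι) : ℕ := if e.1 then 1 else 0

/-- The source tuple. -/
def srcF (e : Dart d ι) : ℕ → ℕ := if e.1 then yF h e.2.1 e.2.2.2 else xF h e.2.1 e.2.2.1

/-- The target tuple. -/
def tgtF (e : Dart d ι) : ℕ → ℕ := if e.1 then xF h e.2.1 e.2.2.1 else yF h e.2.1 e.2.2.2

lemma rev_rev (e : Dart d ι) : rev (rev e) = e := by
  obtain ⟨b, r⟩ := e
  cases b <;> rfl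

lemma srcF_rev (e : Dart d ι) : srcF h (rev e) = tgtF h e := by
  obtain ⟨b, r⟩ := e
  cases b <;> rfl

lemma tgtF_rev (e : Dart d ι) : tgtF h (rev e) = srcF h e := by
  obtain ⟨b, r⟩ := e
  cases b <;> rfl

lemma out_rev (e : Dart d ι) : out (rev e) = inn e := by
  obtain ⟨b, r⟩ := e
  cases b <;> rfl

lemma inn_rev (e : Dart d ι) : inn (rev e) = out e := by
  obtain ⟨b, r⟩ := e
  cases b <;> rfl

lemma o_le_one (e : Dart d ι) : o e ≤ 1 := by
  unfold o; split_ifs <;> omega

variable {h}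

lemma srcF_strictMono (hd : 2 ≤ d) (hh : ∀ r, StrictMono (h r)) (e : Dart d ι) :
    StrictMono (srcF h e) := by
  unfold srcF
  split_ifs
  · exact (hh _).comp ((Py_strictMono hd).comp (fun a b hab => Nat.add_lt_add_right hab _))
  · exact (hh _).comp ((Px_strictMono hd).comp (fun a b hab => Nat.add_lt_add_right hab _))

lemma tgtF_strictMono (hd : 2 ≤ d) (hh : ∀ r, StrictMono (h r)) (e : Dart d ι) :
    StrictMono (tgtF h e) := by
  rw [← srcF_rev]; exact srcF_strictMono hd hh _

lemma link (hd : 2 ≤ d) (e : Dart d ι) (i : ℕ) (hi : o e ≤ i) :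
    srcF h e (i * d + out e) = tgtF h e ((i - o e) * d + inn e + 1) ∧
      srcF h e (i * d + out e + 1) = tgtF h e ((i - o e + 1) * d + inn e) := by
  obtain ⟨b, r, ⟨j, hj⟩, ⟨j', hj'⟩⟩ := e
  cases b <;> simp only [srcF, tgtF, out, inn, o, xF, yF, Bool.false_eq_true, if_true, if_false]
  · refine ⟨congrArg (h r) ?_, congrArg (h r) ?_⟩
    · rw [show i * d + j + (d - j) = (i + 1) * d by rw [Nat.add_mul, one_mul]; omega,
        show (i - 0) * d + j' + 1 + (d - 1 - j') = (i + 1) * d + 0 by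
          rw [Nat.add_mul, one_mul, Nat.sub_zero]; omega,
        Px_mul (by omega), Py_mul_add _ (by omega : 0 < d)]
      omega
    · rw [show i * d + j + 1 + (d - j) = (i + 1) * d + 1 by rw [Nat.add_mul, one_mul]; omega,
        show (i - 0 + 1) * d + j' + (d - 1 - j') = (i + 1) * d + (d - 1) by
          rw [Nat.sub_zero]; omega,
        Px_mul_add_one hd, Py_mul_add _ (by omega : d - 1 < d)]
  · obtain ⟨i, rfl⟩ : ∃ q, i = q + 1 := ⟨i - 1, by simp [o] at hi; omega⟩
    refine ⟨congrArg (h r) ?_, congrArg (h r) ?_⟩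
    · rw [show (i + 1) * d + j' + (d - 1 - j') = (i + 1) * d + (d - 1) by omega,
        show (i + 1 - 1) * d + j + 1 + (d - j) = (i + 1) * d + 1 by
          rw [Nat.add_sub_cancel, Nat.add_mul, one_mul]; omega,
        Px_mul_add_one hd, Py_mul_add _ (by omega : d - 1 < d)]
    · rw [show (i + 1) * d + j' + 1 + (d - 1 - j') = (i + 1 + 1) * d + 0 by
          rw [Nat.add_mul (i + 1) 1, one_mul]; omega,
        show (i + 1 - 1 + 1) * d + j + (d - j) = (i + 1 + 1) * d by
          rw [Nat.add_sub_cancel, Nat.add_mul (i + 1) 1, one_mul]; omega,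
        Px_mul (by omega), Py_mul_add _ (by omega : 0 < d)]
      omega

end Dart

/-- The `k`-periodic vector of a slot of a tuple. -/
noncomputable def slotVec (k : ℕ) (c : ℕ → ℕ) (j : Fin d) : ℕ →₀ ℝ :=
  ∑ i ∈ range k, (δ (c (i * d + j)) - δ (c (i * d + j + 1)))

/-- The vector of a dart. -/
noncomputable def edgeVec (k : ℕ) (e : Dart d ι) : ℕ →₀ ℝ :=
  (1 / 2 : ℝ) • (slotVec k (Dart.srcF h e) (Dart.out e) - slotVec k (Dart.tgtF h e) (Dart.inn e))

lemma edgeVec_rev (k : ℕ) (e : Dart d ι) : edgeVec h k (Dart.rev e) = - edgeVec h k e := by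
  simp only [edgeVec, Dart.srcF_rev, Dart.tgtF_rev, Dart.out_rev, Dart.inn_rev, ← smul_neg,
    neg_sub]

lemma N_slotVec (S : Spreading) (hd : 2 ≤ d) (k : ℕ) {c : ℕ → ℕ} (hc : StrictMono c) (j : Fin d) :
    S.N (slotVec k c j) = S.q 1 k := by
  have hg : StrictMono fun n => c (n / 2 * d + n % 2 + j) :=
    hc.comp (StrictMono.add_const
      (periodic_strictMono (by omega) id (fun _ _ h _ => h) (fun r h => by simp only [id]; omega)) _)
  have e : slotVec k c j = (pat 1 k).mapDomain fun n => c (n / 2 * d + n % 2 + j) := by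
    simp only [slotVec, pat, sum_range_one, Finsupp.mapDomain_finsetSum, sub_eq_add_neg,
      Finsupp.mapDomain_add, ← Finsupp.single_neg, Finsupp.mapDomain_single]
    refine sum_congr rfl fun i _ => ?_
    have h1 : 2 * 1 * i / 2 = i := by omega
    have h2 : 2 * 1 * i % 2 = 0 := by omega
    have h3 : (2 * 1 * i + 1) / 2 = i := by omega
    have h4 : (2 * 1 * i + 1) % 2 = 1 := by omega
    simp only [Nat.add_zero, h1, h2, h3, h4, show i * d + 1 + (j : ℕ) = i * d + j + 1 by omega]
  rw [e, S.N_mapDomain hg, Spreading.q]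
  simp

lemma N_edgeVec_le (S : Spreading) (hd : 2 ≤ d) (hh : ∀ r, StrictMono (h r)) (k : ℕ)
    (e : Dart d ι) : S.N (edgeVec h k e) ≤ S.q 1 k := by
  rw [edgeVec, S.N_smul]
  have := map_sub_le_add S.N (slotVec k (Dart.srcF h e) (Dart.out e))
    (slotVec k (Dart.tgtF h e) (Dart.inn e))
  rw [N_slotVec S hd k (Dart.srcF_strictMono hd hh e),
    N_slotVec S hd k (Dart.tgtF_strictMono hd hh e)] at this
  rw [abs_of_pos (by norm_num : (0 : ℝ) < 1 / 2)]
  linarith

/-- The next dart does not turn back, nor next to the slot it came from. -/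
def Good (e e' : Dart d ι) : Prop :=
  (Dart.out e' : ℕ) ≠ Dart.inn e ∧ (Dart.out e' : ℕ) ≠ ((Dart.inn e : ℕ) + 1) % d ∧
    ((Dart.out e' : ℕ) + 1) % d ≠ Dart.inn e

section Path

variable (p : ℕ → Dart d ι) (T : ℕ)

/-- The index of the period followed by the path. -/
def idx : ℕ → ℕ
  | 0 => T + 1
  | s + 1 => idx s - Dart.o (p s) + if (Dart.out (p (s + 1)) : ℕ) < Dart.inn (p s) then 1 else 0

/-- Beginning of the `l`th arc at time `s`. -/
def pa (s l : ℕ) : ℕ := Dart.srcF h (p s) ((idx p T s + l) * d + Dart.out (p s))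

/-- End of the `l`th arc at time `s`. -/
def pb (s l : ℕ) : ℕ := Dart.srcF h (p s) ((idx p T s + l) * d + Dart.out (p s) + 1)

lemma idx_bounds (s : ℕ) : T + 1 ≤ idx p T s + s ∧ idx p T s ≤ T + 1 + s := by
  induction s with
  | zero => simp [idx]
  | succ s ih =>
    have := Dart.o_le_one (p s)
    simp only [idx]
    split_ifs <;> omega

variable {p T} {k k' : ℕ}

lemma pa_eq (hd : 2 ≤ d) {s : ℕ} (hs : s < T) (l : ℕ) :
    pa h p T s l = Dart.tgtF h (p s) ((idx p T s - Dart.o (p s) + l) * d + Dart.inn (p s) + 1) ∧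
    pb h p T s l =
      Dart.tgtF h (p s) ((idx p T s - Dart.o (p s) + l + 1) * d + Dart.inn (p s)) := by
  have h1 := Dart.o_le_one (p s)
  have h2 := idx_bounds p T s
  have h3 := Dart.link (h := h) hd (p s) (idx p T s + l) (by omega)
  rw [Nat.sub_add_comm (by omega : Dart.o (p s) ≤ idx p T s)] at h3
  exact h3

lemma nested_step (hd : 3 ≤ d) (hh : ∀ r, StrictMono (h r)) (hk : 2 * T + k' + 4 ≤ k)
    (hcompat : ∀ s, s + 1 < T → ∀ n ≤ k * d, Dart.tgtF h (p s) n = Dart.srcF h (p (s + 1)) n)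
    (hgood : ∀ s, s + 1 < T → Good (p s) (p (s + 1))) {s : ℕ} (hs : s + 1 < T) {l : ℕ}
    (hl : l ≤ k' + 1) :
    pa h p T s l < pa h p T (s + 1) l ∧ pb h p T (s + 1) l < pb h p T s l := by
  obtain ⟨g1, g2, g3⟩ := hgood s hs
  have hb := idx_bounds p T s
  have ho := Dart.o_le_one (p s)
  obtain ⟨e1, e2⟩ := pa_eq h (p := p) (T := T) (by omega : 2 ≤ d) (by omega : s < T) l
  have hj : (Dart.inn (p s) : ℕ) < d := (Dart.inn (p s)).isLt
  have hj' : (Dart.out (p (s + 1)) : ℕ) < d := (Dart.out (p (s + 1))).isLt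
  have hsucc : idx p T (s + 1) = idx p T s - Dart.o (p s)
      + if (Dart.out (p (s + 1)) : ℕ) < Dart.inn (p s) then 1 else 0 := rfl
  set i := idx p T s - Dart.o (p s) + l with hi
  have hik : (i + 2) * d ≤ k * d := Nat.mul_le_mul_right d (by omega)
  rw [Nat.add_mul] at hik
  rw [Nat.add_mul, one_mul] at e2
  rw [e1, e2, hcompat s hs _ (by omega), hcompat s hs _ (by omega)]
  simp only [pa, pb, hsucc]
  set a := (Dart.inn (p s) : ℕ)
  set b := (Dart.out (p (s + 1)) : ℕ)
  have g2' : b ≠ a + 1 ∧ ¬(a + 1 = d ∧ b = 0) := by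
    refine ⟨fun e => g2 ?_, fun e => g2 ?_⟩
    · rw [Nat.mod_eq_of_lt (by omega)]; exact e
    · rw [e.1, Nat.mod_self]; exact e.2
  have g3' : b + 1 ≠ a ∧ ¬(b + 1 = d ∧ a = 0) := by
    refine ⟨fun e => g3 ?_, fun e => g3 ?_⟩
    · rw [Nat.mod_eq_of_lt (by omega)]; exact e
    · rw [e.1, Nat.mod_self]; exact e.2.symm
  have hmono := (Dart.srcF_strictMono (h := h) (by omega : 2 ≤ d) hh (p (s + 1)))
  by_cases hlt : b < a
  · rw [if_pos hlt, show idx p T s - Dart.o (p s) + 1 + l = i + 1 by omega, Nat.add_mul i 1 d,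
      one_mul]
    exact ⟨hmono (by omega), hmono (by omega)⟩
  · rw [if_neg hlt, show idx p T s - Dart.o (p s) + 0 + l = i by omega]
    exact ⟨hmono (by omega), hmono (by omega)⟩

lemma pa_lt_pb (hd : 2 ≤ d) (hh : ∀ r, StrictMono (h r)) (s l : ℕ) :
    pa h p T s l < pb h p T s l :=
  Dart.srcF_strictMono hd hh _ (Nat.lt_succ_self _)

lemma pb_lt_pa_succ (hd : 2 ≤ d) (hh : ∀ r, StrictMono (h r)) (s l : ℕ) :
    pb h p T s l < pa h p T s (l + 1) := by
  refine Dart.srcF_strictMono hd hh _ ?_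
  rw [show idx p T s + (l + 1) = idx p T s + l + 1 by omega, Nat.add_mul (idx p T s + l) 1,
    one_mul]
  omega

open Finsupp in
lemma exists_decomposition (hd : 3 ≤ d) (hh : ∀ r, StrictMono (h r))
    (hk : 2 * T + k' + 4 ≤ k)
    (hcompat : ∀ s, s + 1 < T → ∀ n ≤ k * d, Dart.tgtF h (p s) n = Dart.srcF h (p (s + 1)) n)
    (hgood : ∀ s, s + 1 < T → Good (p s) (p (s + 1))) {s : ℕ} (hs : s < T) :
    ∃ L R : ℕ →₀ ℝ,
      edgeVec h k (p s)
        = L + ∑ l ∈ range k', (δ (pa h p T s (l + 1)) - δ (pb h p T s (l + 1))) + R ∧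
      L ∈ supported ℝ ℝ (Set.Iio (pa h p T 0 1)) ∧
      R ∈ supported ℝ ℝ (Set.Ioi (pb h p T 0 k')) ∧
      tot L = -1 / 2 ∧ tot R = 1 / 2 := by
  have hd2 : 2 ≤ d := by omega
  have hb := idx_bounds p T s
  have ho := Dart.o_le_one (p s)
  have nest : ∀ t, t < T → ∀ l ≤ k' + 1,
      pa h p T 0 l ≤ pa h p T t l ∧ pb h p T t l ≤ pb h p T 0 l := by
    intro t
    induction t with
    | zero => exact fun _ l _ => ⟨le_rfl, le_rfl⟩
    | succ t ih =>
      intro ht l hl
      obtain ⟨a1, a2⟩ := ih (by omega) l hl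
      obtain ⟨b1, b2⟩ := nested_step h hd hh hk hcompat hgood ht hl
      exact ⟨a1.trans b1.le, b2.le.trans a2⟩
  have lowb : pb h p T s 0 < pa h p T 0 1 :=
    ((nest s hs 0 (by omega)).2).trans_lt (pb_lt_pa_succ h hd2 hh 0 0)
  have lowa : pa h p T s 0 < pa h p T 0 1 := (pa_lt_pb h hd2 hh s 0).trans lowb
  have high : pb h p T 0 k' < pa h p T s (k' + 1) :=
    (pb_lt_pa_succ h hd2 hh 0 k').trans_le (nest s hs (k' + 1) le_rfl).1
  have high' : pb h p T 0 k' < pb h p T s (k' + 1) := high.trans (pa_lt_pb h hd2 hh s _)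
  set I := idx p T s with hI
  set I' := idx p T s - Dart.o (p s) with hI'
  set F := Dart.srcF h (p s) with hF
  set G := Dart.tgtF h (p s) with hG
  set a := (Dart.out (p s) : ℕ)
  set b := (Dart.inn (p s) : ℕ)
  have hFm : StrictMono F := Dart.srcF_strictMono hd2 hh _
  have hGm : StrictMono G := Dart.tgtF_strictMono hd2 hh _
  have ea : ∀ l, pa h p T s l = G ((I' + l) * d + b + 1) := fun l => (pa_eq h hd2 hs l).1
  have eb : ∀ l, pb h p T s l = G ((I' + l + 1) * d + b) := fun l => (pa_eq h hd2 hs l).2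
  have split : ∀ (g : ℕ → ℕ →₀ ℝ) (u : ℕ), u + k' ≤ k →
      ∑ i ∈ range k, g i
        = ∑ i ∈ range u, g i + ∑ l ∈ range k', g (u + l) + ∑ i ∈ Ico (u + k') k, g i := by
    intro g u hu
    rw [← sum_range_add g u k', sum_range_add_sum_Ico _ hu]
  refine ⟨(1 / 2 : ℝ) • (∑ i ∈ range (I + 1), (δ (F (i * d + a)) - δ (F (i * d + a + 1)))
      + ∑ i ∈ range (I' + 1), δ (G (i * d + b + 1)) - ∑ i ∈ range (I' + 2), δ (G (i * d + b))),
    (1 / 2 : ℝ) • (∑ i ∈ Ico (I + 1 + k') k, (δ (F (i * d + a)) - δ (F (i * d + a + 1)))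
      + ∑ i ∈ Ico (I' + 1 + k') k, δ (G (i * d + b + 1))
      - ∑ i ∈ Ico (I' + 2 + k') k, δ (G (i * d + b))), ?_, ?_, ?_, ?_, ?_⟩
  · have s1 := split (fun i => δ (F (i * d + a)) - δ (F (i * d + a + 1))) (I + 1) (by omega)
    have s2 := split (fun i => δ (G (i * d + b + 1))) (I' + 1) (by omega)
    have s3 := split (fun i => δ (G (i * d + b))) (I' + 2) (by omega)
    have m1 : ∑ l ∈ range k', (δ (pa h p T s (l + 1)) - δ (pb h p T s (l + 1)))
        = ∑ l ∈ range k', (δ (F ((I + 1 + l) * d + a)) - δ (F ((I + 1 + l) * d + a + 1))) := by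
      refine sum_congr rfl fun l _ => ?_
      rw [show I + 1 + l = idx p T s + (l + 1) by omega]
      rfl
    have m2 : ∑ l ∈ range k', (δ (pa h p T s (l + 1)) - δ (pb h p T s (l + 1)))
        = ∑ l ∈ range k', δ (G ((I' + 1 + l) * d + b + 1))
          - ∑ l ∈ range k', δ (G ((I' + 2 + l) * d + b)) := by
      rw [← sum_sub_distrib]
      refine sum_congr rfl fun l _ => ?_
      rw [ea, eb, show I' + (l + 1) = I' + 1 + l by omega,
        show I' + 1 + l + 1 = I' + 2 + l by omega]
    simp only [edgeVec, slotVec]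
    rw [s1, sum_sub_distrib (s := range k) (f := fun i => δ (G (i * d + b))), s2, s3, ← m1]
    conv_rhs => rw [show ∑ l ∈ range k', (δ (pa h p T s (l + 1)) - δ (pb h p T s (l + 1)))
      = (1 / 2 : ℝ) • ∑ l ∈ range k', (δ (pa h p T s (l + 1)) - δ (pb h p T s (l + 1)))
        + (1 / 2 : ℝ) • ∑ l ∈ range k', (δ (pa h p T s (l + 1)) - δ (pb h p T s (l + 1))) by
      rw [← add_smul]; norm_num]
    conv_rhs => arg 1; arg 2; arg 2; rw [m2]
    module
  · refine Submodule.smul_mem _ _ (sub_mem (add_mem ?_ ?_) ?_)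
    · refine sum_mem fun i hi => sub_mem ?_ ?_ <;> refine single_mem_supported ℝ _ ?_
      all_goals
        have hi' := mem_range.1 hi
        have := Nat.mul_le_mul_right d (show i ≤ idx p T s by omega)
        refine lt_of_le_of_lt (hFm.monotone ?_) lowb
        simp only [Nat.add_zero]
        omega
    · refine sum_mem fun i hi => single_mem_supported ℝ _ ?_
      have hi' := mem_range.1 hi
      have := Nat.mul_le_mul_right d (show i ≤ I' by omega)
      refine lt_of_le_of_lt ?_ lowa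
      rw [ea]
      exact hGm.monotone (by simp only [Nat.add_zero]; omega)
    · refine sum_mem fun i hi => single_mem_supported ℝ _ ?_
      have hi' := mem_range.1 hi
      have := Nat.mul_le_mul_right d (show i ≤ I' + 1 by omega)
      refine lt_of_le_of_lt ?_ lowb
      rw [eb]
      exact hGm.monotone (by simp only [Nat.add_zero]; omega)
  · refine Submodule.smul_mem _ _ (sub_mem (add_mem ?_ ?_) ?_)
    · refine sum_mem fun i hi => sub_mem ?_ ?_ <;> refine single_mem_supported ℝ _ ?_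
      all_goals
        have hi' := (mem_Ico.1 hi).1
        have := Nat.mul_le_mul_right d (show idx p T s + (k' + 1) ≤ i by omega)
        refine lt_of_lt_of_le high (hFm.monotone ?_)
        omega
    · refine sum_mem fun i hi => single_mem_supported ℝ _ ?_
      have hi' := (mem_Ico.1 hi).1
      have := Nat.mul_le_mul_right d (show I' + (k' + 1) ≤ i by omega)
      refine lt_of_lt_of_le high ?_
      rw [ea]
      exact hGm.monotone (by omega)
    · refine sum_mem fun i hi => single_mem_supported ℝ _ ?_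
      have hi' := (mem_Ico.1 hi).1
      have := Nat.mul_le_mul_right d (show I' + (k' + 1) + 1 ≤ i by omega)
      refine lt_of_lt_of_le high' ?_
      rw [eb]
      exact hGm.monotone (by omega)
  · simp only [map_smul, map_sub, map_add, map_sum, tot_δ, sum_const, sub_self, smul_zero,
      card_range, nsmul_eq_mul, smul_eq_mul]
    push_cast
    ring
  · simp only [map_smul, map_sub, map_add, map_sum, tot_δ, sum_const, sub_self, smul_zero,
      Nat.card_Ico, nsmul_eq_mul, smul_eq_mul]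
    rw [show k - (I' + 1 + k') = k - (I' + 2 + k') + 1 by omega]
    push_cast
    ring

open Finsupp in
lemma path_lower (S : Spreading) (hd : 3 ≤ d) (hh : ∀ r, StrictMono (h r))
    (hT : 0 < T) (hk' : 0 < k') (hk : 2 * T + k' + 4 ≤ k)
    (hcompat : ∀ s, s + 1 < T → ∀ n ≤ k * d, Dart.tgtF h (p s) n = Dart.srcF h (p (s + 1)) n)
    (hgood : ∀ s, s + 1 < T → Good (p s) (p (s + 1))) :
    S.η / (S.η + 2) * ((T : ℝ) * S.q T k') ≤ S.N (∑ s ∈ range T, edgeVec h k (p s)) := by
  have hd2 : 2 ≤ d := by omega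
  have dec : ∀ s : ℕ, ∃ L R : ℕ →₀ ℝ, s < T →
      edgeVec h k (p s)
        = L + ∑ l ∈ range k', (δ (pa h p T s (l + 1)) - δ (pb h p T s (l + 1))) + R ∧
      L ∈ supported ℝ ℝ (Set.Iio (pa h p T 0 1)) ∧
      R ∈ supported ℝ ℝ (Set.Ioi (pb h p T 0 k')) ∧
      tot L = -1 / 2 ∧ tot R = 1 / 2 := by
    intro s
    by_cases hs : s < T
    · obtain ⟨L, R, hLR⟩ := exists_decomposition h hd hh hk hcompat hgood hs
      exact ⟨L, R, fun _ => hLR⟩
    · exact ⟨0, 0, fun h' => absurd h' hs⟩
  choose L R hLR using dec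
  let ψ : ℕ → ℕ := fun n => if n % (2 * T) < T then pa h p T (n % (2 * T)) (n / (2 * T) + 1)
    else pb h p T (2 * T - 1 - n % (2 * T)) (n / (2 * T) + 1)
  have ψa : ∀ l s, s < T → ψ (2 * T * l + s) = pa h p T s (l + 1) := by
    intro l s hs
    have h1 : (2 * T * l + s) % (2 * T) = s := by
      rw [Nat.mul_add_mod, Nat.mod_eq_of_lt (by omega)]
    have h2 : (2 * T * l + s) / (2 * T) = l := by
      rw [Nat.mul_add_div (by omega), Nat.div_eq_of_lt (by omega), add_zero]
    simp only [ψ, h1, h2, if_pos hs]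
  have ψb : ∀ l s, s < T → ψ (2 * T * l + T + s) = pb h p T (T - 1 - s) (l + 1) := by
    intro l s hs
    have h1 : (2 * T * l + T + s) % (2 * T) = T + s := by
      rw [add_assoc, Nat.mul_add_mod, Nat.mod_eq_of_lt (by omega)]
    have h2 : (2 * T * l + T + s) / (2 * T) = l := by
      rw [add_assoc, Nat.mul_add_div (by omega), Nat.div_eq_of_lt (by omega), add_zero]
    simp only [ψ, h1, h2]
    rw [if_neg (by omega), show 2 * T - 1 - (T + s) = T - 1 - s by omega]
  have step : ∀ n, n + 1 < 2 * T * k' → ψ n < ψ (n + 1) := by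
    intro n hn
    set l := n / (2 * T) with hl
    set r := n % (2 * T) with hr
    have hn' : n = 2 * T * l + r := (Nat.div_add_mod n (2 * T)).symm
    have hr' : r < 2 * T := Nat.mod_lt _ (by omega)
    have hlk : l < k' := by
      by_contra hc
      have := Nat.mul_le_mul_left (2 * T) (not_lt.1 hc)
      omega
    rcases lt_trichotomy (r + 1) T with c | c | c
    · rw [hn', ψa l r (by omega), add_assoc, ψa l (r + 1) c]
      exact (nested_step h hd hh hk hcompat hgood c (by omega)).1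
    · rw [hn', ψa l r (by omega), show 2 * T * l + r + 1 = 2 * T * l + T + 0 by omega,
        ψb l 0 hT, show T - 1 - 0 = r by omega]
      exact pa_lt_pb h hd2 hh _ _
    · obtain ⟨s, hs⟩ : ∃ s, r = T + s := ⟨r - T, by omega⟩
      rw [hn', hs, ← add_assoc (2 * T * l) T s, ψb l s (by omega)]
      by_cases c2 : s + 1 < T
      · rw [add_assoc (2 * T * l + T) s 1, ψb l (s + 1) c2,
          show T - 1 - s = T - 1 - (s + 1) + 1 by omega]
        exact (nested_step h hd hh hk hcompat hgood (by omega) (by omega)).2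
      · rw [show 2 * T * l + T + s + 1 = 2 * T * (l + 1) + 0 by rw [Nat.mul_add]; omega,
          ψa (l + 1) 0 hT, show T - 1 - s = 0 by omega]
        exact pb_lt_pa_succ h hd2 hh _ _
  have mono : StrictMonoOn ψ (Set.Iio (2 * T * k')) := by
    intro a _ b hb hab
    induction b with
    | zero => omega
    | succ b ih =>
      have hb' : b + 1 < 2 * T * k' := hb
      rcases (Nat.lt_succ_iff.1 hab).lt_or_eq with c | c
      · exact (ih (Nat.lt_of_succ_lt hb') c).trans (step b hb')
      · subst c; exact step a hb'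
  have psupp : pat T k' ∈ supported ℝ ℝ (Set.Iio (2 * T * k')) := by
    refine sum_mem fun l hl => sum_mem fun s hs => sub_mem ?_ ?_ <;>
      refine single_mem_supported ℝ _ ?_
    all_goals
      have hs' := mem_range.1 hs
      have := Nat.mul_le_mul_left (2 * T) (show l + 1 ≤ k' from mem_range.1 hl)
      rw [Nat.mul_add, mul_one] at this
      show _ < 2 * T * k'
      omega
  set M := ∑ s ∈ range T, ∑ l ∈ range k', (δ (pa h p T s (l + 1)) - δ (pb h p T s (l + 1)))
    with hM
  have hMψ : M = (pat T k').mapDomain ψ := by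
    simp only [pat, Finsupp.mapDomain_finsetSum, sub_eq_add_neg, Finsupp.mapDomain_add,
      ← Finsupp.single_neg, Finsupp.mapDomain_single, hM]
    rw [Finset.sum_comm]
    refine sum_congr rfl fun l _ => ?_
    rw [sum_add_distrib, sum_add_distrib]
    congr 1
    · exact sum_congr rfl fun s hs => by rw [ψa l s (mem_range.1 hs)]
    · rw [← sum_range_reflect]
      exact sum_congr rfl fun s hs => by rw [ψb l s (mem_range.1 hs)]
  have hNM : S.N M = T * S.q T k' := by
    rw [hMψ, S.spread ψ _ (mono.mono psupp), Spreading.q]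
    field_simp
  have ψrange : ∀ n, n < 2 * T * k' → pa h p T 0 1 ≤ ψ n ∧ ψ n ≤ pb h p T 0 k' := by
    intro n hn
    have e1 : ψ 0 = pa h p T 0 1 := by simpa using ψa 0 0 hT
    have e2 : ψ (2 * T * (k' - 1) + T + (T - 1)) = pb h p T 0 k' := by
      rw [ψb _ _ (by omega), Nat.sub_self, Nat.sub_add_cancel hk']
    have hlast : 2 * T * (k' - 1) + T + (T - 1) + 1 = 2 * T * k' := by
      have : 2 * T * (k' - 1) + 2 * T = 2 * T * k' := by
        rw [← Nat.mul_succ, Nat.succ_eq_add_one, Nat.sub_add_cancel hk']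
      omega
    refine ⟨e1 ▸ mono.monotoneOn (show (0 : ℕ) < 2 * T * k' by omega) hn (Nat.zero_le _),
      e2 ▸ mono.monotoneOn hn (show _ < 2 * T * k' by omega) (by omega)⟩
  have hMs : ∀ i ∈ M.support, pa h p T 0 1 ≤ i ∧ i ≤ pb h p T 0 k' := by
    intro i hi
    rw [hMψ] at hi
    obtain ⟨n, hn, rfl⟩ := mem_image.1 (Finsupp.mapDomain_support hi)
    exact ψrange n (psupp hn)
  set LL := ∑ s ∈ range T, L s
  set RR := ∑ s ∈ range T, R s
  have hLs : LL ∈ supported ℝ ℝ (Set.Iio (pa h p T 0 1)) :=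
    sum_mem fun s hs => (hLR s (mem_range.1 hs)).2.1
  have hRs : RR ∈ supported ℝ ℝ (Set.Ioi (pb h p T 0 k')) :=
    sum_mem fun s hs => (hLR s (mem_range.1 hs)).2.2.1
  have tL : tot LL = -(T / 2 : ℝ) := by
    rw [map_sum, sum_congr rfl fun s hs => (hLR s (mem_range.1 hs)).2.2.2.1]
    simp; ring
  have tR : tot RR = (T / 2 : ℝ) := by
    rw [map_sum, sum_congr rfl fun s hs => (hLR s (mem_range.1 hs)).2.2.2.2]
    simp; ring
  have tM : tot M = 0 := by simp [hM]
  have hsum : ∑ s ∈ range T, edgeVec h k (p s) = LL + M + RR := by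
    rw [sum_congr rfl fun s hs => (hLR s (mem_range.1 hs)).1, sum_add_distrib, sum_add_distrib]
  rw [hsum]
  have hlohi : pa h p T 0 1 ≤ pb h p T 0 k' := by
    have := ψrange 0 (Nat.mul_pos (by omega) hk')
    omega
  have b1 := S.collapse_middle LL M RR _ _ (by omega : pa h p T 0 1 ≤ pb h p T 0 k' + 1)
    (fun i hi => hLs hi) hMs (fun i hi => hRs hi)
  have hT0 : (0 : ℝ) ≤ T / 2 := by positivity
  rw [tL, tR, abs_neg, abs_of_nonneg hT0, hNM] at b1
  have b2 := S.collapse_cut (LL + M) RR (pb h p T 0 k' + 1) hT0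
    (fun i hi => by
      rcases mem_union.1 (Finsupp.support_add hi) with c | c
      · have c1 : i < pa h p T 0 1 := hLs c
        omega
      · have := hMs i c
        omega)
    (fun i hi => hRs hi)
    (by rw [map_add, tL, tM, add_zero]) tR
  have hη := S.η_pos
  rw [div_mul_eq_mul_div, div_le_iff₀ (by linarith)]
  have b3 := mul_le_mul_of_nonneg_left b1 hη.le
  nlinarith

end Path

end Vale.Agent.P125.Full
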