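import Vale.Agent.P125.Full.Defs

/-!
P125: from antisymmetric functions on darts to functions on the states of a finite chain.

States are `V × (E → box)`; the dart `e` adds `δ_e - δ_(rev e)` to the counter `H`, moves that
leave the box become holding, and `f (x, H) = ∑ e, H e • (1/2 • u e)`.
-/

namespace Vale.Agent.P125.Full

open Finset

variable {V E : Type} [Fintype E] [DecidableEq V]
  {W : Type*} [AddCommGroup W] [Module ℝ W]

lemma Darts.tgt_rev (D : Darts V E) (e : E) : D.tgt (D.rev e) = D.src e := by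
  rw [← D.src_rev, D.rev_rev]

lemma Darts.mass_nonneg (D : Darts V E) (x : V) : 0 ≤ D.mass x :=
  sum_nonneg fun e _ => by split_ifs; exacts [D.w_nonneg e, le_rfl]

lemma Darts.mass_tgt (D : Darts V E) (x : V) :
    (∑ e, if D.tgt e = x then D.w e else 0) = D.mass x := by
  let σ : E ≃ E := ⟨D.rev, D.rev, D.rev_rev, D.rev_rev⟩
  refine (Equiv.sum_comp σ (fun e => if D.tgt e = x then D.w e else 0)).symm.trans ?_
  refine sum_congr rfl fun e _ => ?_
  show (if D.tgt (D.rev e) = x then D.w (D.rev e) else 0) = _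
  rw [D.tgt_rev, D.w_rev]

lemma Darts.w_eq_zero_of_mass (D : Darts V E) {e : E} (h : D.mass (D.src e) = 0) : D.w e = 0 := by
  have := (sum_eq_zero_iff_of_nonneg fun e' _ => by
    split_ifs; exacts [D.w_nonneg e', le_rfl]).1 h e (mem_univ e)
  simpa using this

lemma Darts.next_nonneg (D : Darts V E) (e e' : E) : 0 ≤ D.next e e' := by
  unfold Darts.next
  split_ifs
  exacts [div_nonneg (D.w_nonneg e') (D.mass_nonneg _), le_rfl]

lemma Darts.sum_next_le (D : Darts V E) (e : E) : ∑ e', D.next e e' ≤ 1 := by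
  have : ∑ e', D.next e e' = D.mass (D.tgt e) / D.mass (D.tgt e) := by
    rw [Darts.mass, sum_div]
    refine sum_congr rfl fun e' _ => ?_
    unfold Darts.next Darts.mass
    split_ifs <;> simp
  rw [this]
  exact div_self_le_one _

lemma Darts.stationary (D : Darts V E) (e' : E) : ∑ e, D.w e * D.next e e' = D.w e' := by
  have : ∀ e, D.w e * D.next e e'
      = (if D.tgt e = D.src e' then D.w e else 0) * (D.w e' / D.mass (D.src e')) := by
    intro e
    unfold Darts.next
    by_cases h : D.tgt e = D.src e'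
    · simp [h]
    · simp [h, Ne.symm h]
  rw [sum_congr rfl fun e _ => this e, ← sum_mul, D.mass_tgt]
  by_cases h : D.mass (D.src e') = 0
  · rw [D.w_eq_zero_of_mass h]; simp
  · field_simp

/-- Probability that the next `n` transitions are good. -/
noncomputable def Darts.allGood (D : Darts V E) (good : E → E → Prop) [DecidableRel good] :
    ℕ → E → ℝ
  | 0, _ => 1
  | n + 1, e => ∑ e', if good e e' then D.next e e' * D.allGood good n e' else 0

lemma Darts.allGood_mem (D : Darts V E) (good : E → E → Prop) [DecidableRel good] :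
    ∀ (n : ℕ) (e : E), 0 ≤ D.allGood good n e ∧ D.allGood good n e ≤ 1
  | 0, e => ⟨zero_le_one, le_rfl⟩
  | n + 1, e => by
    refine ⟨sum_nonneg fun e' _ => ?_, le_trans (sum_le_sum fun e' _ => ?_) (D.sum_next_le e)⟩
    · split_ifs
      exacts [mul_nonneg (D.next_nonneg e e') (D.allGood_mem good n e').1, le_rfl]
    · split_ifs
      exacts [mul_le_of_le_one_right (D.next_nonneg e e') (D.allGood_mem good n e').2,
        D.next_nonneg e e']

lemma Darts.expFrom_nonneg (D : Darts V E) :
    ∀ (n : ℕ) (e : E) (G : List E → ℝ), (∀ l, 0 ≤ G l) → 0 ≤ D.expFrom n e G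
  | 0, _, _, hG => hG _
  | n + 1, e, _, hG => sum_nonneg fun e' _ =>
      mul_nonneg (D.next_nonneg e e') (D.expFrom_nonneg n e' _ fun _ => hG _)

lemma Darts.allGood_le_expFrom (D : Darts V E) (good : E → E → Prop) [DecidableRel good] {c : ℝ} :
    ∀ (n : ℕ) (e : E) (G : List E → ℝ), (∀ l, 0 ≤ G l) →
      (∀ l : List E, l.length = n → (e :: l).IsChain good →
        (e :: l).IsChain (fun a b => D.src b = D.tgt a) → c ≤ G (e :: l)) →
      c * D.allGood good n e ≤ D.expFrom n e G
  | 0, e, G, _, h => by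
    simpa [Darts.allGood, Darts.expFrom] using h [] rfl (List.isChain_singleton e)
      (List.isChain_singleton e)
  | n + 1, e, G, hG, h => by
    simp only [Darts.allGood, Darts.expFrom, mul_sum]
    refine sum_le_sum fun e' _ => ?_
    have h0 := mul_nonneg (D.next_nonneg e e') (D.expFrom_nonneg n e' _ fun l => hG (e :: l))
    by_cases hs : D.src e' = D.tgt e
    · by_cases hg : good e e'
      · rw [if_pos hg, mul_left_comm]
        refine mul_le_mul_of_nonneg_left ?_ (D.next_nonneg e e')
        refine D.allGood_le_expFrom good n e' _ (fun l => hG _) fun l hl h1 h2 => ?_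
        exact h (e' :: l) (by simp [hl]) (List.IsChain.cons_cons hg h1)
          (List.IsChain.cons_cons hs h2)
      · rwa [if_neg hg, mul_zero]
    · have : D.next e e' = 0 := by simp [Darts.next, hs]
      simp [this]

/-- A union bound: if consecutive darts are rarely bad, then most paths are good, so a
nonnegative function which is at least `c` on good paths has expectation at least `c(1 - nβ)`. -/
theorem Darts.good_paths (D : Darts V E) (good : E → E → Prop) [DecidableRel good] {β : ℝ}
    (hβ : ∑ e, ∑ e', (if good e e' then 0 else D.w e * D.next e e') ≤ β)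
    (n : ℕ) (G : List E → ℝ) {c : ℝ} (hc : 0 ≤ c) (hG : ∀ l, 0 ≤ G l)
    (hgood : ∀ l : List E, l.length = n + 1 → l.IsChain good →
      l.IsChain (fun e e' => D.src e' = D.tgt e) → c ≤ G l) :
    c * (1 - n * β) ≤ D.expPath n G := by
  have hM : ∀ m : ℕ, 1 - (m : ℝ) * β ≤ ∑ e, D.w e * D.allGood good m e := by
    intro m
    induction m with
    | zero => simp [Darts.allGood, D.w_sum]
    | succ m ih =>
      have key : ∑ e, D.w e * D.allGood good m e
          ≤ ∑ e, D.w e * D.allGood good (m + 1) e + β := by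
        calc ∑ e, D.w e * D.allGood good m e
            = ∑ e, ∑ e', D.w e * D.next e e' * D.allGood good m e' := by
              rw [sum_comm]
              exact sum_congr rfl fun e' _ => by rw [← sum_mul, D.stationary]
          _ ≤ ∑ e, ∑ e', ((if good e e' then D.w e * (D.next e e' * D.allGood good m e') else 0)
              + if good e e' then 0 else D.w e * D.next e e') := by
              refine sum_le_sum fun e _ => sum_le_sum fun e' _ => ?_
              split_ifs
              · simp [mul_assoc]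
              · rw [zero_add]
                exact mul_le_of_le_one_right (mul_nonneg (D.w_nonneg e) (D.next_nonneg e e'))
                  (D.allGood_mem good m e').2
          _ ≤ _ := by
              simp only [sum_add_distrib]
              refine add_le_add (le_of_eq (sum_congr rfl fun e _ => ?_)) hβ
              simp only [Darts.allGood, mul_sum, mul_ite, mul_zero]
      push_cast
      linarith
  calc c * (1 - n * β) ≤ c * ∑ e, D.w e * D.allGood good n e :=
        mul_le_mul_of_nonneg_left (hM n) hc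
    _ ≤ D.expPath n G := by
      rw [mul_sum]
      refine sum_le_sum fun e _ => ?_
      rw [mul_left_comm]
      refine mul_le_mul_of_nonneg_left ?_ (D.w_nonneg e)
      exact D.allGood_le_expFrom good n e G hG fun l hl => hgood (e :: l) (by simp [hl])

section Box

variable [DecidableEq E] {L : ℕ}

/-- The displacement of the counter along a dart. -/
def Darts.delta (D : Darts V E) (e k : E) : ℤ :=
  (if k = e then 1 else 0) - if k = D.rev e then 1 else 0

/-- The move of a state along a dart, holding outside the box. -/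
def Darts.move (D : Darts V E) (s : V × (E → Fin L)) (e : E) : V × (E → Fin L) :=
  if h : ∀ k, 0 ≤ (s.2 k : ℤ) + D.delta e k ∧ (s.2 k : ℤ) + D.delta e k < L then
    (D.tgt e, fun k => ⟨((s.2 k : ℤ) + D.delta e k).toNat, by have := h k; omega⟩)
  else s

lemma Darts.move_eq (D : Darts V E) {s r : V × (E → Fin L)} {e : E} (hne : r ≠ s) :
    D.move s e = r ↔
      (D.tgt e = r.1 ∧ ∀ k, (r.2 k : ℤ) = (s.2 k : ℤ) + D.delta e k) := by
  constructor
  · intro h
    unfold Darts.move at h
    split_ifs at h with hb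
    · subst h
      exact ⟨rfl, fun k => Int.toNat_of_nonneg (hb k).1⟩
    · exact absurd h.symm hne
  · rintro ⟨h1, h2⟩
    unfold Darts.move
    have hb : ∀ k, 0 ≤ (s.2 k : ℤ) + D.delta e k ∧ (s.2 k : ℤ) + D.delta e k < L := fun k => by
      have := (r.2 k).isLt
      rw [← h2 k]
      omega
    rw [dif_pos hb]
    refine Prod.ext h1 (funext fun k => Fin.ext ?_)
    show ((s.2 k : ℤ) + D.delta e k).toNat = (r.2 k).val
    have := h2 k
    omega

lemma Darts.delta_rev (D : Darts V E) (e k : E) : D.delta (D.rev e) k = - D.delta e k := by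
  simp [Darts.delta, D.rev_rev]

/-- The transition matrix on the box. -/
noncomputable def Darts.boxP (D : Darts V E) : Matrix (V × (E → Fin L)) (V × (E → Fin L)) ℝ :=
  fun s r => (∑ e, if D.src e = s.1 ∧ D.move s e = r then D.w e / D.mass s.1 else 0)
    + if D.mass s.1 = 0 ∧ s = r then 1 else 0

lemma Darts.boxP_nonneg (D : Darts V E) (s r : V × (E → Fin L)) : 0 ≤ D.boxP s r := by
  refine add_nonneg (sum_nonneg fun e _ => ?_) ?_
  · split_ifs
    exacts [div_nonneg (D.w_nonneg e) (D.mass_nonneg _), le_rfl]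
  · split_ifs <;> norm_num

variable [Fintype V]

lemma Darts.boxP_apply (D : Darts V E) (s : V × (E → Fin L)) (g : V × (E → Fin L) → ℝ) :
    ∑ r, D.boxP s r * g r
      = (∑ e, if D.src e = s.1 then D.w e / D.mass s.1 * g (D.move s e) else 0)
        + if D.mass s.1 = 0 then g s else 0 := by
  simp only [Darts.boxP, add_mul, sum_add_distrib, sum_mul]
  congr 1
  · rw [sum_comm]
    refine sum_congr rfl fun e _ => ?_
    by_cases h : D.src e = s.1
    · simp [h, ite_mul]
    · simp [h]
  · by_cases h : D.mass s.1 = 0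
    · simp [h, ite_mul]
    · simp [h]

lemma Darts.boxP_sum (D : Darts V E) (s : V × (E → Fin L)) : ∑ r, D.boxP s r = 1 := by
  have h := D.boxP_apply s fun _ => 1
  simp only [mul_one] at h
  rw [h]
  have : (∑ e, if D.src e = s.1 then D.w e / D.mass s.1 else 0) = D.mass s.1 / D.mass s.1 := by
    rw [Darts.mass, sum_div]
    exact sum_congr rfl fun e _ => by split_ifs <;> simp
  rw [this]
  by_cases h0 : D.mass s.1 = 0 <;> simp [h0]

lemma Darts.mass_mul_boxP (D : Darts V E) {s r : V × (E → Fin L)} (hne : r ≠ s) :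
    D.mass s.1 * D.boxP s r
      = ∑ e, if D.src e = s.1 ∧ D.tgt e = r.1 ∧ ∀ k, (r.2 k : ℤ) = (s.2 k : ℤ) + D.delta e k
          then D.w e else 0 := by
  rw [Darts.boxP, if_neg (fun h => hne h.2.symm), add_zero, mul_sum]
  refine sum_congr rfl fun e _ => ?_
  by_cases h : D.src e = s.1
  · simp only [h, true_and, D.move_eq hne]
    split_ifs
    · by_cases hm : D.mass s.1 = 0
      · rw [D.w_eq_zero_of_mass (h ▸ hm)]; simp
      · field_simp
    · simp
  · simp [h]

lemma Darts.mass_mul_boxP_symm (D : Darts V E) (s r : V × (E → Fin L)) :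
    D.mass s.1 * D.boxP s r = D.mass r.1 * D.boxP r s := by
  rcases eq_or_ne r s with rfl | hne
  · rfl
  rw [D.mass_mul_boxP hne, D.mass_mul_boxP hne.symm]
  let σ : E ≃ E := ⟨D.rev, D.rev, D.rev_rev, D.rev_rev⟩
  refine Eq.trans ?_ (Equiv.sum_comp σ _)
  refine sum_congr rfl fun e _ => ?_
  simp only [σ, Equiv.coe_fn_mk, D.src_rev, D.tgt_rev, D.delta_rev, D.w_rev]
  refine if_congr ⟨fun ⟨a, b, c⟩ => ⟨b, a, fun k => by linarith [c k]⟩,
    fun ⟨a, b, c⟩ => ⟨b, a, fun k => by linarith [c k]⟩⟩ rfl rfl

variable (u : E → W)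

/-- The lifted function on the box. -/
noncomputable def boxF (s : V × (E → Fin L)) : W := ∑ k, ((s.2 k : ℕ) : ℝ) • ((1 / 2 : ℝ) • u k)

lemma Darts.boxF_move (D : Darts V E) (hu : ∀ e, u (D.rev e) = - u e) (s : V × (E → Fin L))
    (e : E) : boxF u (D.move s e) - boxF u s
      = if ∀ k, 0 ≤ (s.2 k : ℤ) + D.delta e k ∧ (s.2 k : ℤ) + D.delta e k < L then u e else 0 := by
  unfold Darts.move
  split_ifs with h
  · have hc : ∀ k, ((((s.2 k : ℤ) + D.delta e k).toNat : ℕ) : ℝ)
        = ((s.2 k : ℕ) : ℝ) + (D.delta e k : ℝ) := fun k => by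
      have h' : (((((s.2 k : ℤ) + D.delta e k).toNat : ℕ) : ℤ) : ℝ)
          = ((((s.2 k : ℕ) : ℤ) + D.delta e k : ℤ) : ℝ) :=
        congrArg _ (Int.toNat_of_nonneg (h k).1)
      push_cast at h'
      exact h'
    simp only [boxF, ← sum_sub_distrib, hc, add_smul, add_sub_cancel_left]
    simp only [Darts.delta, Int.cast_sub, Int.cast_ite, Int.cast_one, Int.cast_zero, sub_smul,
      ite_smul, one_smul, zero_smul, sum_sub_distrib, sum_ite_eq', mem_univ, if_true]
    rw [hu, smul_neg, sub_neg_eq_add, ← add_smul]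
    norm_num
  · rw [sub_self]

variable (N : Seminorm ℝ W) (p : ℝ)

/-- Expected value of `N (b + sum of u)^p` over `n` darts starting at `x`. -/
noncomputable def Darts.walkVal (D : Darts V E) : ℕ → V → W → ℝ
  | 0, _, b => N b ^ p
  | n + 1, x, b => ∑ e, if D.src e = x then
      D.w e / D.mass x * D.walkVal n (D.tgt e) (b + u e) else 0

lemma Darts.expFrom_walkVal (D : Darts V E) :
    ∀ (n : ℕ) (e : E) (b : W),
      D.expFrom n e (fun l => N (b + (l.map u).sum) ^ p) = D.walkVal u N p n (D.tgt e) (b + u e)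
  | 0, e, b => by simp [Darts.expFrom, Darts.walkVal]
  | n + 1, e, b => by
    simp only [Darts.expFrom, Darts.walkVal, List.map_cons, List.sum_cons, ← add_assoc]
    refine sum_congr rfl fun e' _ => ?_
    rw [D.expFrom_walkVal n e' (b + u e)]
    simp [Darts.next, ite_mul]

lemma Darts.walkVal_le (D : Darts V E) (hu : ∀ e, u (D.rev e) = - u e) :
    ∀ (n : ℕ) (s : V × (E → Fin L)) (b : W),
      (∀ k, n ≤ (s.2 k : ℕ) ∧ (s.2 k : ℕ) + n < L) →
      D.walkVal u N p n s.1 b ≤ ∑ r, (D.boxP ^ n) s r * N (b + (boxF u r - boxF u s)) ^ p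
  | 0, s, b, _ => by simp [Darts.walkVal, Matrix.one_apply]
  | n + 1, s, b, hs => by
    have key : ∑ r, (D.boxP ^ (n + 1)) s r * N (b + (boxF u r - boxF u s)) ^ p
        = ∑ m, D.boxP s m * ∑ r, (D.boxP ^ n) m r * N (b + (boxF u r - boxF u s)) ^ p := by
      simp only [pow_succ', Matrix.mul_apply, sum_mul, mul_sum, mul_assoc]
      exact sum_comm
    have hpow : ∀ (n : ℕ) (m r : V × (E → Fin L)), 0 ≤ (D.boxP ^ n) m r := by
      intro n
      induction n with
      | zero => intro m r; rw [pow_zero, Matrix.one_apply]; split_ifs <;> norm_num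
      | succ n ih =>
        intro m r
        rw [pow_succ', Matrix.mul_apply]
        exact sum_nonneg fun q _ => mul_nonneg (D.boxP_nonneg m q) (ih q r)
    rw [key, D.boxP_apply]
    refine le_add_of_le_of_nonneg (sum_le_sum fun e _ => ?_) ?_
    · split_ifs with he
      · refine mul_le_mul_of_nonneg_left ?_ (div_nonneg (D.w_nonneg e) (D.mass_nonneg _))
        have hb : ∀ k, 0 ≤ (s.2 k : ℤ) + D.delta e k ∧ (s.2 k : ℤ) + D.delta e k < L := fun k => by
          have := hs k
          unfold Darts.delta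
          split_ifs <;> omega
        have hm : D.move s e = (D.tgt e,
            fun k => ⟨((s.2 k : ℤ) + D.delta e k).toNat, by have := hb k; omega⟩) := dif_pos hb
        have hd := D.boxF_move u hu s e
        rw [if_pos hb] at hd
        have := D.walkVal_le hu n (D.move s e) (b + u e) fun k => by
          rw [hm]
          have := hs k
          have h1 : D.delta e k ≤ 1 ∧ -1 ≤ D.delta e k := by
            unfold Darts.delta
            split_ifs <;> omega
          show n ≤ ((s.2 k : ℤ) + D.delta e k).toNat ∧ ((s.2 k : ℤ) + D.delta e k).toNat + n < L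
          omega
        rw [show (D.move s e).1 = D.tgt e by rw [hm]] at this
        refine this.trans_eq (sum_congr rfl fun r _ => ?_)
        rw [← hd]
        congr 3
        abel
      · rfl
    · split_ifs
      · exact sum_nonneg fun r _ => mul_nonneg (hpow _ _ _)
          (Real.rpow_nonneg (apply_nonneg N _) p)
      · rfl

lemma Darts.expPath_eq (D : Darts V E) (n : ℕ) :
    D.expPath n (fun l => N (l.map u).sum ^ p) = ∑ x, D.mass x * D.walkVal u N p (n + 1) x 0 := by
  have h : ∀ e, D.expFrom n e (fun l => N (l.map u).sum ^ p)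
      = D.walkVal u N p n (D.tgt e) (0 + u e) := fun e => by
    simpa using D.expFrom_walkVal u N p n e 0
  simp only [Darts.expPath, h, Darts.walkVal, mul_sum, mul_ite, mul_zero]
  rw [sum_comm]
  refine sum_congr rfl fun e _ => ?_
  rw [sum_ite_eq, if_pos (mem_univ _)]
  by_cases hm : D.mass (D.src e) = 0
  · rw [D.w_eq_zero_of_mass hm]; simp
  · field_simp

lemma Darts.step_le (D : Darts V E) (hu : ∀ e, u (D.rev e) = - u e) {A : ℝ} (hp : 1 ≤ p)
    (hA0 : 0 ≤ A) (hA : ∀ e, N (u e) ≤ A) (s : V × (E → Fin L)) :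
    ∑ r, D.boxP s r * N (boxF u r - boxF u s) ^ p ≤ A ^ p := by
  rw [D.boxP_apply]
  have hz : N (0 : W) ^ p ≤ A ^ p := by
    rw [map_zero, Real.zero_rpow (by linarith)]; positivity
  have hs1 : (∑ e, if D.src e = s.1 then
      D.w e / D.mass s.1 * N (boxF u (D.move s e) - boxF u s) ^ p else 0)
      ≤ D.mass s.1 / D.mass s.1 * A ^ p := by
    rw [show D.mass s.1 / D.mass s.1 * A ^ p
        = ∑ e, if D.src e = s.1 then D.w e / D.mass s.1 * A ^ p else 0 by
      rw [Darts.mass, sum_div, sum_mul]
      exact sum_congr rfl fun e _ => by split_ifs <;> simp]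
    refine sum_le_sum fun e _ => ?_
    split_ifs
    · refine mul_le_mul_of_nonneg_left ?_ (div_nonneg (D.w_nonneg e) (D.mass_nonneg _))
      rw [D.boxF_move u hu]
      split_ifs
      · exact Real.rpow_le_rpow (apply_nonneg N _) (hA e) (by linarith)
      · exact hz
    · rfl
  by_cases h0 : D.mass s.1 = 0
  · simp only [h0, div_zero, zero_mul] at hs1 ⊢
    rw [if_pos trivial, sub_self, map_zero, Real.zero_rpow (by linarith), add_zero]
    exact hs1.trans (by positivity)
  · rw [div_self h0, one_mul] at hs1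
    simpa [h0] using hs1

omit [DecidableEq V] [Fintype V] in
lemma card_inner (n m : ℕ) :
    (Fintype.piFinset fun _ : E => (univ.filter fun a : Fin (m + 2 * (n + 1)) =>
      n + 1 ≤ (a : ℕ) ∧ (a : ℕ) + (n + 1) < m + 2 * (n + 1))).card = m ^ Fintype.card E := by
  rw [Fintype.card_piFinset, prod_const, card_univ]
  congr 1
  have : (univ.filter fun a : Fin (m + 2 * (n + 1)) =>
      n + 1 ≤ (a : ℕ) ∧ (a : ℕ) + (n + 1) < m + 2 * (n + 1)).map Fin.valEmbedding
      = Finset.Ico (n + 1) (n + 1 + m) := by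
    ext a
    simp only [mem_map, mem_filter, mem_univ, true_and, Fin.valEmbedding_apply, mem_Ico]
    constructor
    · rintro ⟨b, hb, rfl⟩; omega
    · intro ha; exact ⟨⟨a, by omega⟩, by simp only; omega, rfl⟩
  rw [← card_map Fin.valEmbedding, this, Nat.card_Ico]
  omega

lemma Darts.boxP_pow_nonneg (D : Darts V E) :
    ∀ (j : ℕ) (a b : V × (E → Fin L)), 0 ≤ (D.boxP ^ j) a b
  | 0, a, b => by rw [pow_zero, Matrix.one_apply]; split_ifs <;> norm_num
  | j + 1, a, b => by
    rw [pow_succ', Matrix.mul_apply]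
    exact sum_nonneg fun q _ => mul_nonneg (D.boxP_nonneg a q) (D.boxP_pow_nonneg j q b)

/-- Markov type on the box of side `m + 2(n+1)`, restricted to inner starting points. -/
lemma Darts.box_bound (D : Darts V E) (hu : ∀ e, u (D.rev e) = - u e) {K A : ℝ} (hp : 1 ≤ p)
    (hK : 0 ≤ K) (hA0 : 0 ≤ A) (hMT : MT (fun x => N x) p K) (hA : ∀ e, N (u e) ≤ A) (n m : ℕ) :
    ((m : ℝ) / (m + 2 * (n + 1) : ℕ)) ^ Fintype.card E * D.expPath n (fun l => N (l.map u).sum ^ p)
      ≤ K ^ p * (n + 1) * A ^ p := by
  set Q := D.expPath n (fun l => N (l.map u).sum ^ p) with hQ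
  obtain ⟨L, hL⟩ : ∃ L, L = m + 2 * (n + 1) := ⟨_, rfl⟩
  rw [← hL]
  have hL0 : 0 < L := by omega
  set π : V × (E → Fin L) → ℝ := fun s => D.mass s.1 / (L : ℝ) ^ Fintype.card E with hπ
  have hπ1 : ∑ s, π s = 1 := by
    have hmass : ∑ x, D.mass x = 1 := by
      simp only [Darts.mass]
      rw [sum_comm, ← D.w_sum]
      exact sum_congr rfl fun e _ => by simp
    simp only [hπ, Fintype.sum_prod_type, sum_const, card_univ, Fintype.card_fun,
      Fintype.card_fin, nsmul_eq_mul]
    rw [← mul_sum, ← sum_div, hmass]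
    push_cast
    field_simp
  have hM := hMT (V × (E → Fin L)) π D.boxP
    (fun s => div_nonneg (D.mass_nonneg _) (by positivity)) hπ1
    (fun s r => D.boxP_nonneg s r) (fun s => D.boxP_sum s)
    (fun s r => by
      simp only [hπ, div_mul_eq_mul_div, D.mass_mul_boxP_symm s r])
    (boxF u) (n + 1) (by omega)
  have h1 : ∑ s, ∑ r, π s * D.boxP s r * N (boxF u r - boxF u s) ^ p ≤ A ^ p := by
    have hstep := D.step_le (L := L) u N p hu hp hA0 hA
    calc ∑ s, ∑ r, π s * D.boxP s r * N (boxF u r - boxF u s) ^ p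
        ≤ ∑ s, π s * A ^ p := sum_le_sum fun s _ => by
          simp only [mul_assoc, ← mul_sum]
          exact mul_le_mul_of_nonneg_left (hstep s)
            (div_nonneg (D.mass_nonneg _) (by positivity))
      _ = A ^ p := by rw [← sum_mul, hπ1, one_mul]
  set good := (Fintype.piFinset fun _ : E =>
    (univ.filter fun a : Fin L => n + 1 ≤ (a : ℕ) ∧ (a : ℕ) + (n + 1) < L)) with hgood
  have hcard : good.card = m ^ Fintype.card E := by
    rw [hgood]; subst hL; exact card_inner n m
  have h2 : ((m : ℝ) / (L : ℕ)) ^ Fintype.card E * Q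
      ≤ ∑ s, ∑ r, π s * (D.boxP ^ (n + 1)) s r * N (boxF u r - boxF u s) ^ p := by
    have hwalk : ∀ x, ∀ H ∈ good, π (x, H) * D.walkVal u N p (n + 1) x 0
        ≤ ∑ r, π (x, H) * (D.boxP ^ (n + 1)) (x, H) r * N (boxF u r - boxF u (x, H)) ^ p := by
      intro x H hH
      simp only [mul_assoc, ← mul_sum]
      refine mul_le_mul_of_nonneg_left ?_ (div_nonneg (D.mass_nonneg _) (by positivity))
      simpa using D.walkVal_le u N p hu (n + 1) (x, H) 0 fun k =>
        (mem_filter.1 (Fintype.mem_piFinset.1 hH k)).2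
    have hnn : ∀ s : V × (E → Fin L),
        0 ≤ ∑ r, π s * (D.boxP ^ (n + 1)) s r * N (boxF u r - boxF u s) ^ p := by
      intro s
      exact sum_nonneg fun r _ => mul_nonneg (mul_nonneg
        (div_nonneg (D.mass_nonneg _) (by positivity)) (D.boxP_pow_nonneg _ _ _))
        (Real.rpow_nonneg (apply_nonneg N _) p)
    calc ((m : ℝ) / (L : ℕ)) ^ Fintype.card E * Q
        = ∑ x, ∑ _H ∈ good, π (x, _H) * D.walkVal u N p (n + 1) x 0 := by
          rw [hQ, D.expPath_eq u N p n, mul_sum]
          refine sum_congr rfl fun x _ => ?_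
          simp only [hπ, sum_const, hcard, nsmul_eq_mul, Nat.cast_pow, div_pow]
          ring
      _ ≤ ∑ x, ∑ H ∈ good,
          ∑ r, π (x, H) * (D.boxP ^ (n + 1)) (x, H) r * N (boxF u r - boxF u (x, H)) ^ p :=
          sum_le_sum fun x _ => sum_le_sum (hwalk x)
      _ ≤ ∑ x, ∑ H : E → Fin L,
          ∑ r, π (x, H) * (D.boxP ^ (n + 1)) (x, H) r * N (boxF u r - boxF u (x, H)) ^ p :=
          sum_le_sum fun x _ => sum_le_sum_of_subset_of_nonneg (subset_univ _)
            fun H _ _ => hnn (x, H)
      _ = ∑ s, ∑ r, π s * (D.boxP ^ (n + 1)) s r * N (boxF u r - boxF u s) ^ p := by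
          rw [Fintype.sum_prod_type]
  beta_reduce at hM
  refine h2.trans (hM.trans ?_)
  push_cast
  exact mul_le_mul_of_nonneg_left h1 (by positivity)

end Box

/-- Markov type passes to sums along stationary dart paths of an antisymmetric function. -/
theorem Darts.markov_paths [Fintype V] (D : Darts V E) (N : Seminorm ℝ W) {p K A : ℝ}
    (hp : 1 ≤ p) (hK : 0 ≤ K) (hMT : MT (fun x => N x) p K)
    (u : E → W) (hu : ∀ e, u (D.rev e) = - u e) (hA : ∀ e, N (u e) ≤ A) (n : ℕ) :
    D.expPath n (fun l => N (l.map u).sum ^ p) ≤ K ^ p * (n + 1) * A ^ p := by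
  classical
  have hE : Nonempty E := by
    by_contra h
    rw [not_nonempty_iff] at h
    simpa using D.w_sum
  obtain ⟨e₀⟩ := hE
  have hA0 : 0 ≤ A := (apply_nonneg N _).trans (hA e₀)
  set R := K ^ p * (n + 1) * A ^ p
  set Q := D.expPath n (fun l => N (l.map u).sum ^ p) with hQ
  have key : ∀ m : ℕ, ((m : ℝ) / (m + 2 * (n + 1) : ℕ)) ^ Fintype.card E * Q ≤ R :=
    fun m => D.box_bound u N p hu hp hK hA0 hMT hA n m
  have h : Filter.Tendsto (fun m : ℕ => ((m : ℝ) / (m + 2 * (n + 1) : ℕ)) ^ Fintype.card E * Q)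
      Filter.atTop (nhds Q) := by
    simpa using
      ((tendsto_natCast_div_add_atTop (2 * ((n : ℝ) + 1))).pow (Fintype.card E)).mul_const Q
  exact le_of_tendsto' h key

end Vale.Agent.P125.Full
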