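import Vale.Agent.P125.Full.Defs

/-!
P125: separated finite sequences give a spreading seminorm that inherits Markov type:
`N c = lim_U,(i_1 → U), …, lim_U,(n → U) ‖∑ c_l • x n i_l‖`.
-/

namespace Vale.Agent.P125.Full

open Finset Filter Topology

/-- Prepend a value to a sequence. -/
def seqCons (i : ℕ) (ι : ℕ → ℕ) : ℕ → ℕ
  | 0 => i
  | l + 1 => ι l

@[simp] lemma seqCons_zero (i : ℕ) (ι : ℕ → ℕ) : seqCons i ι 0 = i := rfl
@[simp] lemma seqCons_succ (i : ℕ) (ι : ℕ → ℕ) (l : ℕ) : seqCons i ι (l + 1) = ι l := rfl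

/-- The iterated ultrafilter on sequences with `m` free entries, the first entry outermost. -/
noncomputable def iterU : ℕ → Ultrafilter (ℕ → ℕ)
  | 0 => pure fun _ => 0
  | m + 1 => (hyperfilter ℕ).bind fun i => (iterU m).map (seqCons i)

/-- The ultrafilter along which the spreading limit is taken. -/
noncomputable def limU : Ultrafilter (ℕ × (ℕ → ℕ)) :=
  (hyperfilter ℕ).bind fun m => (iterU m).bind fun ι => (hyperfilter ℕ).map fun n => (n, ι)

lemma eventually_iterU_succ {m : ℕ} {h : (ℕ → ℕ) → Prop} :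
    (∀ᶠ ι in (iterU (m + 1) : Filter (ℕ → ℕ)), h ι) ↔
      ∀ᶠ i in (hyperfilter ℕ : Filter ℕ), ∀ᶠ ι in (iterU m : Filter (ℕ → ℕ)), h (seqCons i ι) :=
  Iff.rfl

lemma eventually_limU {h : ℕ × (ℕ → ℕ) → Prop} :
    (∀ᶠ z in (limU : Filter (ℕ × (ℕ → ℕ))), h z) ↔
      ∀ᶠ m in (hyperfilter ℕ : Filter ℕ), ∀ᶠ ι in (iterU m : Filter (ℕ → ℕ)),
        ∀ᶠ n in (hyperfilter ℕ : Filter ℕ), h (n, ι) :=
  Iff.rfl

lemma hyper_gt (i : ℕ) : ∀ᶠ n in (hyperfilter ℕ : Filter ℕ), i < n :=
  (eventually_gt_atTop i).filter_mono Nat.hyperfilter_le_atTop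

/-- All free entries exceed any given bound. -/
lemma iterU_gt : ∀ (m i : ℕ), ∀ᶠ ι in (iterU m : Filter (ℕ → ℕ)), ∀ l < m, i < ι l
  | 0, i => Eventually.of_forall fun ι l hl => absurd hl (by omega)
  | m + 1, i => eventually_iterU_succ.2 <| (hyper_gt i).mono fun j hj =>
      (iterU_gt m i).mono fun ι hι l hl => by
        rcases l with - | l
        · exact hj
        · exact hι l (by omega)

/-- The free entries increase. -/
lemma iterU_mono : ∀ m : ℕ, ∀ᶠ ι in (iterU m : Filter (ℕ → ℕ)), ∀ l l', l < l' → l' < m → ι l < ι l'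
  | 0 => Eventually.of_forall fun ι l l' h h' => absurd h' (by omega)
  | m + 1 => eventually_iterU_succ.2 <| Eventually.of_forall fun i =>
      ((iterU_gt m i).and (iterU_mono m)).mono fun ι hι l l' h h' => by
        rcases l' with - | l'
        · omega
        rcases l with - | l
        · exact hι.1 l' (by omega)
        · exact hι.2 l l' (by omega) (by omega)

/-- Events about the first `k` entries do not see which increasing `k` entries are read. -/
lemma iterU_select : ∀ (m k : ℕ) (g : ℕ → ℕ) (h : (ℕ → ℕ) → Prop),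
    (∀ l < k, g l < m) → (∀ l l', l < l' → l' < k → g l < g l') →
    (∀ ι ι', (∀ l < k, ι l = ι' l) → (h ι ↔ h ι')) →
    ((∀ᶠ ι in (iterU m : Filter (ℕ → ℕ)), h (fun l => ι (g l))) ↔
      ∀ᶠ ι in (iterU k : Filter (ℕ → ℕ)), h ι) := by
  intro m
  induction m with
  | zero =>
    intro k g h hg _ hdep
    rcases k with - | k
    · have key : ∀ ι : ℕ → ℕ, h ι ↔ h (fun _ => 0) := fun ι => hdep _ _ (by omega)
      rw [eventually_congr (Eventually.of_forall fun ι : ℕ → ℕ => key fun l => ι (g l)),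
        eventually_congr (Eventually.of_forall key)]
    · exact absurd (hg 0 (by omega)) (by omega)
  | succ m ih =>
    intro k g h hg hmono hdep
    rw [eventually_iterU_succ]
    rcases k with - | k
    · have key : ∀ ι : ℕ → ℕ, h ι ↔ h (fun _ => 0) := fun ι => hdep _ _ (by omega)
      have e : ∀ i : ℕ, (∀ᶠ ι in (iterU m : Filter (ℕ → ℕ)), h (fun l => seqCons i ι (g l))) ↔
          h (fun _ => 0) := fun i => by
        rw [eventually_congr (Eventually.of_forall fun ι : ℕ → ℕ =>
          key fun l => seqCons i ι (g l)), eventually_const]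
      rw [eventually_congr (Eventually.of_forall e), eventually_const,
        eventually_congr (Eventually.of_forall key), eventually_const]
    by_cases h0 : g 0 = 0
    · rw [eventually_iterU_succ]
      refine eventually_congr (Eventually.of_forall fun i => ?_)
      refine Iff.trans (eventually_congr (Eventually.of_forall fun ι => ?_))
        (ih k (fun l => g (l + 1) - 1) (fun ι => h (seqCons i ι)) ?_ ?_ ?_)
      · refine hdep _ _ fun l hl => ?_
        rcases l with - | l
        · simp [h0]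
        · have := hmono 0 (l + 1) (by omega) hl
          rw [seqCons_succ]
          conv_lhs => rw [show g (l + 1) = (g (l + 1) - 1) + 1 by omega, seqCons_succ]
      · intro l hl
        have := hg (l + 1) (by omega)
        have := hmono 0 (l + 1) (by omega) (by omega)
        omega
      · intro l l' hl hl'
        have := hmono (l + 1) (l' + 1) (by omega) (by omega)
        have := hmono 0 (l + 1) (by omega) (by omega)
        omega
      · intro ι ι' he
        refine hdep _ _ fun l hl => ?_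
        rcases l with - | l
        · rfl
        · exact he l (by omega)
    · have hpos : ∀ l < k + 1, 1 ≤ g l := by
        intro l hl
        rcases l with - | l
        · omega
        · have := hmono 0 (l + 1) (by omega) hl
          omega
      have e : ∀ i : ℕ, (∀ᶠ ι in (iterU m : Filter (ℕ → ℕ)), h (fun l => seqCons i ι (g l))) ↔
          ∀ᶠ ι in (iterU (k + 1) : Filter (ℕ → ℕ)), h ι := by
        intro i
        refine Iff.trans (eventually_congr (Eventually.of_forall fun ι => ?_))
          (ih (k + 1) (fun l => g l - 1) h ?_ ?_ hdep)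
        · refine hdep _ _ fun l hl => ?_
          have := hpos l hl
          conv_lhs => rw [show g l = (g l - 1) + 1 by omega, seqCons_succ]
        · intro l hl
          have := hg l hl
          have := hpos l hl
          omega
        · intro l l' hl hl'
          have := hmono l l' hl hl'
          have := hpos l (by omega)
          omega
      rw [eventually_congr (Eventually.of_forall e), eventually_const]

/-- Limit events about finitely many increasing entries. -/
lemma limU_select (k : ℕ) (g : ℕ → ℕ) (h : ℕ × (ℕ → ℕ) → Prop)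
    (hmono : ∀ l l', l < l' → l' < k → g l < g l')
    (hdep : ∀ n ι ι', (∀ l < k, ι l = ι' l) → (h (n, ι) ↔ h (n, ι'))) :
    (∀ᶠ z in (limU : Filter (ℕ × (ℕ → ℕ))), h (z.1, fun l => z.2 (g l))) ↔
      ∀ᶠ ι in (iterU k : Filter (ℕ → ℕ)), ∀ᶠ n in (hyperfilter ℕ : Filter ℕ), h (n, ι) := by
  rw [eventually_limU]
  have e : ∀ᶠ m in (hyperfilter ℕ : Filter ℕ),
      ((∀ᶠ ι in (iterU m : Filter (ℕ → ℕ)), ∀ᶠ n in (hyperfilter ℕ : Filter ℕ),
        h (n, fun l => ι (g l))) ↔
      ∀ᶠ ι in (iterU k : Filter (ℕ → ℕ)), ∀ᶠ n in (hyperfilter ℕ : Filter ℕ), h (n, ι)) := by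
    filter_upwards [hyper_gt ((Finset.range k).sup g)] with m hm
    exact iterU_select m k g (fun ι => ∀ᶠ n in (hyperfilter ℕ : Filter ℕ), h (n, ι))
      (fun l hl => (Finset.le_sup (f := g) (Finset.mem_range.2 hl)).trans_lt hm) hmono
      fun ι ι' he => eventually_congr (Eventually.of_forall fun n => hdep n ι ι' he)
  rw [eventually_congr e, eventually_const]

lemma limU_good (M : ℕ) : ∀ᶠ z in (limU : Filter (ℕ × (ℕ → ℕ))),
    (∀ l l', l < l' → l' < M → z.2 l < z.2 l') ∧ ∀ l < M, z.2 l < z.1 := by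
  rw [eventually_limU]
  filter_upwards [hyper_gt M] with m hm
  refine (iterU_mono m).mono fun ι hι => ?_
  filter_upwards [hyper_gt ((Finset.range M).sup ι)] with n hn
  exact ⟨fun l l' h h' => hι l l' h (h'.trans hm),
    fun l hl => (Finset.le_sup (f := ι) (Finset.mem_range.2 hl)).trans_lt hn⟩

variable {X : Type*} [NormedAddCommGroup X] [NormedSpace ℝ X]

/-- The linear map of one sample. -/
noncomputable def sampleMap (x : ℕ → ℕ → X) (z : ℕ × (ℕ → ℕ)) : (ℕ →₀ ℝ) →ₗ[ℝ] X :=
  Finsupp.linearCombination ℝ fun l => x z.1 (z.2 l)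

lemma sampleMap_apply (x : ℕ → ℕ → X) (z : ℕ × (ℕ → ℕ)) (c : ℕ →₀ ℝ) :
    sampleMap x z c = ∑ l ∈ c.support, c l • x z.1 (z.2 l) :=
  Finsupp.linearCombination_apply ℝ c

/-- An ultralimit of seminorms which are bounded at each point. -/
lemma exists_seminorm_lim {T V : Type*} [AddCommGroup V] [Module ℝ V] (W : Ultrafilter T)
    (f : T → V →ₗ[ℝ] X) (B : V → ℝ) (hB : ∀ t v, ‖f t v‖ ≤ B v) :
    ∃ N : Seminorm ℝ V, ∀ v, Tendsto (fun t => ‖f t v‖) (W : Filter T) (𝓝 (N v)) := by
  have h : ∀ v, ∃ L, Tendsto (fun t => ‖f t v‖) (W : Filter T) (𝓝 L) := by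
    intro v
    obtain ⟨L, -, hL⟩ := (isCompact_Icc (a := (0 : ℝ)) (b := B v)).ultrafilter_le_nhds
      (W.map fun t => ‖f t v‖) (le_principal_iff.2 (mem_map.2 (Eventually.of_forall
        fun t => ⟨norm_nonneg _, hB t v⟩)))
    exact ⟨L, hL⟩
  choose L hL using h
  refine ⟨Seminorm.of L (fun u v => ?_) (fun a v => ?_), hL⟩
  · refine le_of_tendsto_of_tendsto (hL (u + v)) ((hL u).add (hL v))
      (Eventually.of_forall fun t => ?_)
    simpa using norm_add_le (f t u) (f t v)
  · refine tendsto_nhds_unique (hL (a • v)) (((hL v).const_mul ‖a‖).congr fun t => ?_)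
    simp [norm_smul]

theorem exists_spreading {p K η : ℝ} (hp : 1 ≤ p) (hη : 0 < η)
    (hMT : MT (fun x : X => ‖x‖) p K) (x : ℕ → ℕ → X) (hx : ∀ n i, ‖x n i‖ ≤ 1)
    (hsep : ∀ n, ∀ b ≤ n, ∀ u v : ℕ → ℝ, (∀ i, 0 ≤ u i) → (∀ i, 0 ≤ v i) →
        ∑ i ∈ range b, u i = 1 → ∑ i ∈ Ico b n, v i = 1 →
        η ≤ ‖∑ i ∈ range b, u i • x n i - ∑ i ∈ Ico b n, v i • x n i‖) :
    ∃ S : Spreading, MT (fun c => S.N c) p K := by
  classical
  obtain ⟨N, hN⟩ := exists_seminorm_lim limU (sampleMap x) (fun c => ∑ l ∈ c.support, |c l|)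
    (fun z c => by
      rw [sampleMap_apply]
      refine (norm_sum_le _ _).trans (Finset.sum_le_sum fun l _ => ?_)
      rw [norm_smul, Real.norm_eq_abs]
      exact mul_le_of_le_one_right (abs_nonneg _) (hx _ _))
  have hlim : ∀ c (L : ℝ), N c = L ↔
      Tendsto (fun z => ‖sampleMap x z c‖) (limU : Filter (ℕ × (ℕ → ℕ))) (𝓝 L) :=
    fun c L => ⟨fun h => h ▸ hN c, fun h => tendsto_nhds_unique (hN c) h⟩
  refine ⟨⟨N, η, hη, fun i => ?_, fun g c hg => ?_, ?_⟩, ?_⟩
  · refine le_of_tendsto (hN _) (Eventually.of_forall fun z => ?_)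
    simpa [sampleMap] using hx z.1 (z.2 i)
  · rw [hlim]
    obtain ⟨k, hk⟩ : ∃ k, c.support.card = k := ⟨_, rfl⟩
    let e := c.support.orderEmbOfFin hk
    let e' : ℕ → ℕ := fun l => if h : l < k then e ⟨l, h⟩ else 0
    let G : ℕ × (ℕ → ℕ) → ℝ := fun z => ‖∑ j : Fin k, c (e j) • x z.1 (z.2 j)‖
    have hsupp : c.support = Finset.univ.map e.toEmbedding :=
      (Finset.map_orderEmbOfFin_univ c.support hk).symm
    have h1 : ∀ z, ‖sampleMap x z c‖ = G (z.1, fun l => z.2 (e' l)) := by
      intro z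
      rw [sampleMap_apply, hsupp, Finset.sum_map]
      simp [G, e']
    have h2 : ∀ z, ‖sampleMap x z (c.mapDomain g)‖ = G (z.1, fun l => z.2 (g (e' l))) := by
      intro z
      rw [sampleMap, Finsupp.linearCombination_mapDomain, Finsupp.linearCombination_apply,
        Finsupp.sum, hsupp, Finset.sum_map]
      simp [G, e']
    have hem : ∀ l l', l < l' → l' < k → e' l < e' l' := by
      intro l l' h h'
      simp only [e', dif_pos (h.trans h'), dif_pos h']
      exact e.strictMono h
    have hmem : ∀ l < k, e' l ∈ (c.support : Set ℕ) := by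
      intro l hl
      simp only [e', dif_pos hl]
      exact Finset.orderEmbOfFin_mem _ _ _
    have hdep : ∀ n ι ι', (∀ l < k, ι l = ι' l) → G (n, ι) = G (n, ι') := by
      intro n ι ι' h
      simp only [G]
      congr 1
      exact Finset.sum_congr rfl fun j _ => by rw [h j j.2]
    rw [tendsto_congr h2]
    have hc := (tendsto_congr h1).1 (hN c)
    rw [tendsto_iff_forall_eventually_mem] at hc ⊢
    intro s hs
    have key := fun g' hg' => limU_select k g' (fun z => G z ∈ s) hg'
      (fun n ι ι' h => by rw [hdep n ι ι' h])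
    exact (key (fun l => g (e' l)) fun l l' h h' =>
      hg (hmem l (h.trans h')) (hmem l' h') (hem l l' h h')).2 ((key e' hem).1 (hc s hs))
  · intro b u v hu hv hu1 hv1 hub hvb
    refine ge_of_tendsto (hN (u - v)) ?_
    obtain ⟨M, hM⟩ : ∃ M, ∀ i ∈ u.support ∪ v.support, i < M :=
      ⟨(u.support ∪ v.support).sup id + 1, fun i hi =>
        Nat.lt_succ_of_le (Finset.le_sup (f := id) hi)⟩
    have hbM : b < M := by
      obtain ⟨i, hi⟩ : v.support.Nonempty := by
        rw [Finset.nonempty_iff_ne_empty]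
        intro h
        simp [Finsupp.sum, h] at hv1
      exact (hvb i hi).trans_lt (hM i (Finset.mem_union_right _ hi))
    refine (limU_good M).mono fun z hz => ?_
    obtain ⟨hinc, hbd⟩ := hz
    have huI : (u.mapDomain z.2).support ⊆ range (z.2 b) := by
      intro i hi
      obtain ⟨l, hl, rfl⟩ := Finset.mem_image.1 (Finsupp.mapDomain_support hi)
      exact Finset.mem_range.2 (hinc l b (hub l hl) hbM)
    have hvI : (v.mapDomain z.2).support ⊆ Ico (z.2 b) z.1 := by
      intro i hi
      obtain ⟨l, hl, rfl⟩ := Finset.mem_image.1 (Finsupp.mapDomain_support hi)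
      have hlM := hM l (Finset.mem_union_right _ hl)
      refine Finset.mem_Ico.2 ⟨?_, hbd l hlM⟩
      rcases (hvb l hl).lt_or_eq with h | h
      · exact (hinc b l h hlM).le
      · rw [h]
    have hnn : ∀ w : ℕ →₀ ℝ, (∀ i, 0 ≤ w i) → ∀ i, 0 ≤ w.mapDomain z.2 i := by
      intro w hw i
      rw [Finsupp.mapDomain, Finsupp.sum_apply, Finsupp.sum]
      exact Finset.sum_nonneg fun l _ => by
        rw [Finsupp.single_apply]
        split_ifs
        · exact hw l
        · exact le_rfl
    have hsum : ∀ (w : ℕ →₀ ℝ) (I : Finset ℕ), (w.sum fun _ a => a) = 1 →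
        (w.mapDomain z.2).support ⊆ I → ∑ i ∈ I, w.mapDomain z.2 i = 1 := by
      intro w I hw hI
      rw [← Finsupp.sum_of_support_subset _ hI (fun _ a => a) (fun _ _ => rfl),
        Finsupp.sum_mapDomain_index (fun _ => rfl) (fun _ _ _ => rfl), hw]
    have happ : ∀ (w : ℕ →₀ ℝ) (I : Finset ℕ), (w.mapDomain z.2).support ⊆ I →
        sampleMap x z w = ∑ i ∈ I, w.mapDomain z.2 i • x z.1 i := by
      intro w I hI
      rw [← Finsupp.sum_of_support_subset _ hI (fun i a => a • x z.1 i) (fun _ _ => zero_smul _ _),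
        Finsupp.sum_mapDomain_index (h := fun i a => a • x z.1 i) (fun _ => zero_smul ℝ _) (fun _ _ _ => add_smul _ _ _),
        sampleMap_apply]
      rfl
    rw [map_sub, happ u _ huI, happ v _ hvI]
    exact hsep z.1 (z.2 b) (hbd b hbM).le _ _ (hnn u hu) (hnn v hv)
      (hsum u _ hu1 huI) (hsum v _ hv1 hvI)
  · intro S _ _ π P h1 h2 h3 h4 h5 f t ht
    have hpow : ∀ c : ℕ →₀ ℝ, Tendsto (fun z => ‖sampleMap x z c‖ ^ p)
        (limU : Filter (ℕ × (ℕ → ℕ))) (𝓝 (N c ^ p)) :=
      fun c => (hN c).rpow_const (Or.inr (by linarith))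
    refine le_of_tendsto_of_tendsto
      (tendsto_finsetSum _ fun a _ => tendsto_finsetSum _ fun b _ =>
        (hpow (f b - f a)).const_mul (π a * (P ^ t) a b))
      ((tendsto_finsetSum _ fun a _ => tendsto_finsetSum _ fun b _ =>
        (hpow (f b - f a)).const_mul (π a * P a b)).const_mul (K ^ p * t))
      (Eventually.of_forall fun z => ?_)
    simpa [map_sub] using hMT S π P h1 h2 h3 h4 h5 (fun a => sampleMap x z (f a)) t ht

end Vale.Agent.P125.Full
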