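import Vale.Agent.P125.Full.Defs

/-!
P125: if the expected number of separated splittings is bounded for every `ε` then there is an
equivalent uniformly convex norm.

For each `ε` with bound `M`, take `κ` with `κ M ≤ 1/2` and the gauge of
`{z | ∃ r, (z, r) ∈ ⋃ N, reach ε N ∧ ‖z‖ + κ (M - r) ≤ 1}`; then combine `ε = 2^(-j)` in `ℓ²`.
-/

namespace Vale.Agent.P125.Full

variable {X : Type*} [NormedAddCommGroup X] [NormedSpace ℝ X]

namespace Renorm

/-- All reachable pairs. -/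
def reachAll (ε : ℝ) : Set (X × ℝ) := ⋃ N, reach ε N

lemma reach_succ (ε : ℝ) (N : ℕ) : reach (X := X) ε N ⊆ reach ε (N + 1) :=
  fun _ hw => subset_convexHull ℝ _ (Or.inl hw)

lemma reach_mono (ε : ℝ) : Monotone (reach (X := X) ε) :=
  monotone_nat_of_le_succ (reach_succ ε)

lemma reach_convex (ε : ℝ) : ∀ N, Convex ℝ (reach (X := X) ε N)
  | 0 => (convex_closedBall 0 1).prod (convex_singleton 0)
  | _ + 1 => convex_convexHull ℝ _

lemma reachAll_convex (ε : ℝ) : Convex ℝ (reachAll (X := X) ε) :=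
  (Monotone.directed_le (reach_mono ε)).convex_iUnion fun {N} => reach_convex ε N

lemma mem_all {ε : ℝ} {z : X} (hz : ‖z‖ ≤ 1) : (z, (0 : ℝ)) ∈ reachAll ε :=
  Set.mem_iUnion.2 ⟨0, ⟨by simpa using hz, rfl⟩⟩

lemma step_mem_all {ε : ℝ} {v w : X × ℝ} (hv : v ∈ reachAll ε) (hw : w ∈ reachAll ε)
    (hsep : ε ≤ ‖v.1 - w.1‖) :
    ((1 / 2 : ℝ) • (v.1 + w.1), (v.2 + w.2) / 2 + 1) ∈ reachAll ε := by
  obtain ⟨N, hN⟩ := Set.mem_iUnion.1 hv
  obtain ⟨L, hL⟩ := Set.mem_iUnion.1 hw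
  exact Set.mem_iUnion.2 ⟨max N L + 1, subset_convexHull ℝ _ (Or.inr
    ⟨v, reach_mono ε (le_max_left N L) hN, w, reach_mono ε (le_max_right N L) hL, hsep, rfl⟩)⟩

lemma neg_mem_reach (ε : ℝ) : ∀ (N : ℕ) (w : X × ℝ),
    w ∈ reach ε N → (-w.1, w.2) ∈ reach ε N
  | 0, w, hw => ⟨by simpa using hw.1, hw.2⟩
  | N + 1, w, hw => by
    set T : X × ℝ →ₗ[ℝ] X × ℝ := LinearMap.prodMap (-LinearMap.id) LinearMap.id with hT
    have hTa : ∀ u : X × ℝ, T u = (-u.1, u.2) := fun u => rfl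
    have hsub : reach (X := X) ε N ∪ sepStep ε (reach ε N) ⊆ T ⁻¹' reach ε (N + 1) := by
      rintro u (hu | ⟨a, ha, b, hb, hab, rfl⟩)
      · exact subset_convexHull ℝ _ (Or.inl (hTa u ▸ neg_mem_reach ε N u hu))
      · refine subset_convexHull ℝ _ (Or.inr ⟨_, neg_mem_reach ε N a ha, _,
          neg_mem_reach ε N b hb, ?_, ?_⟩)
        · simpa [neg_add_eq_sub, norm_sub_rev] using hab
        · rw [hTa]
          simp [smul_add, add_comm]
    have := convexHull_min hsub ((reach_convex ε (N + 1)).linear_preimage T) hw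
    simpa [hTa] using this

/-- The ball of the renorming for one `ε`. -/
def body (ε κ M : ℝ) : Set X := {z | ∃ r, (z, r) ∈ reachAll ε ∧ ‖z‖ + κ * (M - r) ≤ 1}

lemma body_convex {ε κ M : ℝ} : Convex ℝ (body (X := X) ε κ M) := by
  rintro z ⟨r, hr, hle⟩ z' ⟨r', hr', hle'⟩ s t hs ht hst
  refine ⟨s * r + t * r', reachAll_convex ε hr hr' hs ht hst, ?_⟩
  have h1 : ‖s • z + t • z'‖ ≤ s * ‖z‖ + t * ‖z'‖ := by
    refine (norm_add_le _ _).trans ?_
    rw [norm_smul_of_nonneg hs, norm_smul_of_nonneg ht]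
  have h2 : s * (‖z‖ + κ * (M - r)) + t * (‖z'‖ + κ * (M - r')) ≤ s * 1 + t * 1 :=
    add_le_add (mul_le_mul_of_nonneg_left hle hs) (mul_le_mul_of_nonneg_left hle' ht)
  linear_combination h1 + h2 + (1 - κ * M) * hst

/-- One level: an equivalent seminorm which gains at distance `2 * ε`. -/
lemma exists_gain {ε : ℝ} (hB : Bounded X ε) :
    ∃ g : Seminorm ℝ X, (∀ x, ‖x‖ ≤ g x ∧ g x ≤ 2 * ‖x‖) ∧ ∃ δ : ℝ, 0 < δ ∧
      ∀ x y : X, g x ≤ 1 → g y ≤ 1 → 2 * ε ≤ ‖x - y‖ → g ((1 / 2 : ℝ) • (x + y)) ≤ 1 - δ := by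
  obtain ⟨M, hM⟩ := hB
  have hM0 : 0 ≤ M := hM 0 (0, 0) ⟨by simp, rfl⟩
  have hM' : ∀ w ∈ reachAll (X := X) ε, w.2 ≤ M := fun w hw => by
    obtain ⟨N, hN⟩ := Set.mem_iUnion.1 hw
    exact hM N w hN
  set κ : ℝ := 1 / (2 * (M + 1)) with hκ
  have hκ0 : 0 < κ := by positivity
  have hκM : κ * M + κ = 1 / 2 := by rw [hκ]; field_simp
  set C : Set X := body ε κ M with hC
  have hin : ∀ z : X, ‖z‖ ≤ 1 / 2 → z ∈ C := fun z hz =>
    ⟨0, mem_all (by linarith), by nlinarith⟩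
  have hout : C ⊆ Metric.closedBall 0 1 := by
    rintro z ⟨r, hr, hle⟩
    have := hM' _ hr
    simp only [Metric.mem_closedBall, dist_zero_right]
    nlinarith
  have hsymm : ∀ z ∈ C, -z ∈ C := by
    rintro z ⟨r, hr, hle⟩
    obtain ⟨N, hN⟩ := Set.mem_iUnion.1 hr
    exact ⟨r, Set.mem_iUnion.2 ⟨N, neg_mem_reach ε N _ hN⟩, by rwa [norm_neg]⟩
  have h0 : (0 : X) ∈ C := hin 0 (by simp)
  have hball : Metric.ball (0 : X) (1 / 2) ⊆ C := fun z hz =>
    hin z (le_of_lt (by simpa using hz))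
  have habs : Absorbent ℝ C := (absorbent_ball_zero (by norm_num)).mono hball
  have hbal : Balanced ℝ C := by
    rw [balanced_iff_smul_mem]
    intro c hc z hz
    rw [Real.norm_eq_abs, abs_le] at hc
    rcases le_total 0 c with h | h
    · exact body_convex.smul_mem_of_zero_mem h0 hz ⟨h, hc.2⟩
    · have := body_convex.smul_mem_of_zero_mem h0 (hsymm z hz) (t := -c) ⟨by linarith, by linarith⟩
      simpa using this
  set g : Seminorm ℝ X := gaugeSeminorm hbal body_convex habs with hg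
  have hga : ∀ x, g x = gauge C x := fun x => rfl
  have hup : ∀ x, g x ≤ 2 * ‖x‖ := fun x => by
    have := gauge_mono (absorbent_ball_zero (E := X) (𝕜 := ℝ) (by norm_num : (0 : ℝ) < 1 / 2))
      hball x
    rw [gauge_ball (by norm_num) x] at this
    rw [hga]
    linarith
  have hlow : ∀ x, ‖x‖ ≤ g x := fun x => by
    have := gauge_mono habs hout x
    rw [gauge_closedBall zero_le_one, div_one] at this
    rw [hga]
    exact this
  set lam : ℝ := 1 / (M + 1) with hlam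
  have hlam0 : 0 < lam := by positivity
  have hlam1 : lam * (M + 1) = 1 := by rw [hlam]; field_simp
  set c : ℝ := lam * κ with hc
  have hc0 : 0 < c := mul_pos hlam0 hκ0
  refine ⟨g, fun x => ⟨hlow x, hup x⟩, 1 - 1 / (1 + c / 2), ?_, fun x y hx hy hxy => ?_⟩
  · rw [sub_pos, div_lt_one (by linarith)]; linarith
  -- shrink both points a little
  set θ : ℝ := (1 + c / 2) / (1 + c) with hθ
  have hθ1 : θ < 1 := by rw [hθ, div_lt_one (by linarith)]; linarith
  have hθ2 : 1 / 2 ≤ θ := by rw [hθ, le_div_iff₀ (by linarith)]; linarith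
  have hθ0 : 0 < θ := by linarith
  have hmem : ∀ u : X, g u ≤ 1 → θ • u ∈ C := fun u hu =>
    setOfPred_gauge_lt_one_subset_self body_convex h0 habs (show gauge C (θ • u) < 1 by
      rw [gauge_smul_of_nonneg hθ0.le, smul_eq_mul, ← hga]
      nlinarith [apply_nonneg g u])
  obtain ⟨r, hr, hrle⟩ := hmem x hx
  obtain ⟨r', hr', hrle'⟩ := hmem y hy
  have hsep : ε ≤ ‖θ • x - θ • y‖ := by
    rw [← smul_sub, norm_smul_of_nonneg hθ0.le]
    have : 1 / 2 * ‖x - y‖ ≤ θ * ‖x - y‖ := mul_le_mul_of_nonneg_right hθ2 (norm_nonneg _)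
    linarith
  have hmid := step_mem_all hr hr' hsep
  simp only at hmid
  set m : X := (1 / 2 : ℝ) • (θ • x + θ • y) with hm
  set ρ : ℝ := (r + r') / 2 + 1 with hρ
  have hnm : ‖m‖ + κ * (M - ρ) ≤ 1 - κ := by
    have h1 : ‖m‖ ≤ 1 / 2 * (‖θ • x‖ + ‖θ • y‖) := by
      rw [hm, norm_smul_of_nonneg (by norm_num : (0 : ℝ) ≤ 1 / 2)]
      exact mul_le_mul_of_nonneg_left (norm_add_le _ _) (by norm_num)
    rw [hρ]
    linarith
  have hρM := hM' _ hmid
  have hρM : ρ ≤ M := hρM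
  have hnm' : ‖m‖ ≤ 1 - κ := by nlinarith
  have hw : ‖(1 + κ) • m‖ ≤ 1 := by
    rw [norm_smul_of_nonneg (by linarith)]
    nlinarith [norm_nonneg m]
  have hlam' : lam ≤ 1 := by rw [hlam, div_le_one (by linarith)]; linarith
  have hz : (1 + c) • m ∈ C := by
    refine ⟨(1 - lam) * ρ + lam * 0, ?_, ?_⟩
    · have h := reachAll_convex ε hmid (mem_all hw) (show 0 ≤ 1 - lam by linarith) hlam0.le
        (by ring)
      convert h using 1
      ext
      · simp only [Prod.smul_fst, Prod.fst_add, smul_smul, ← add_smul, hc]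
        congr 1
        ring
      · simp
    · rw [norm_smul_of_nonneg (by linarith)]
      have h2 : lam * ρ ≤ lam * M := mul_le_mul_of_nonneg_left hρM hlam0.le
      have h3 : c * ‖m‖ ≤ c * 1 := mul_le_mul_of_nonneg_left (by linarith) hc0.le
      have h4 : κ * (lam * ρ) ≤ κ * (lam * M) := mul_le_mul_of_nonneg_left h2 hκ0.le
      have h5 : c + κ * (lam * M) = κ := by rw [hc]; linear_combination κ * hlam1
      nlinarith
  have hle : g ((1 + c) • m) ≤ 1 := gauge_le_one_of_mem hz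
  have heq : (1 + c) • m = (1 + c / 2) • (1 / 2 : ℝ) • (x + y) := by
    rw [hm, ← smul_add, smul_smul, smul_smul, smul_smul]
    congr 1
    rw [hθ]
    field_simp
  rw [heq, map_smul_eq_mul, Real.norm_eq_abs, abs_of_pos (by linarith), mul_comm,
    ← le_div_iff₀ (by linarith)] at hle
  linarith

/-- Quantitative midpoint gain for squares. -/
lemma sq_gain {g : Seminorm ℝ X} {ε δ τ : ℝ} (hδ : 0 < δ) (hδ1 : δ ≤ 1) (hτ : 0 < τ)
    (hτε : 8 * τ ≤ ε * δ) (hg : ∀ x y : X, g x ≤ 1 → g y ≤ 1 → ε / 4 ≤ ‖x - y‖ →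
      g ((1 / 2 : ℝ) • (x + y)) ≤ 1 - δ)
    (hlow : ∀ x, ‖x‖ ≤ g x) {x y : X} (hx : g x ≤ 2) (hy : g y ≤ 2) (hxy : ε / 2 ≤ ‖x - y‖) :
    g ((1 / 2 : ℝ) • (x + y)) ^ 2 + min (τ ^ 2 / 4) (ε * τ / 8)
      ≤ (g x ^ 2 + g y ^ 2) / 2 := by
  have hε : 0 < ε := by nlinarith
  have hmid : g ((1 / 2 : ℝ) • (x + y)) ≤ (g x + g y) / 2 := by
    rw [map_smul_eq_mul, Real.norm_eq_abs, abs_of_pos (by norm_num : (0 : ℝ) < 1 / 2)]
    linarith [map_add_le_add g x y]
  have h0 := apply_nonneg g ((1 / 2 : ℝ) • (x + y))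
  rcases le_or_gt τ |g x - g y| with hd | hd
  · have hsq : τ ^ 2 ≤ (g x - g y) ^ 2 := by
      rw [← sq_abs (g x - g y)]; exact pow_le_pow_left₀ hτ.le hd 2
    have := min_le_left (τ ^ 2 / 4) (ε * τ / 8)
    have := pow_le_pow_left₀ h0 hmid 2
    nlinarith
  · set m : ℝ := max (g x) (g y) with hm
    have h1 : ε / 4 ≤ m := by
      have := norm_sub_le x y
      have := le_max_left (g x) (g y)
      have := le_max_right (g x) (g y)
      linarith [hlow x, hlow y]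
    have hm0 : 0 < m := by linarith
    have hm2 : m ≤ 2 := max_le hx hy
    have hsc : ∀ u : X, g u ≤ m → g (m⁻¹ • u) ≤ 1 := fun u hu => by
      rw [map_smul_eq_mul, Real.norm_eq_abs, abs_of_pos (inv_pos.2 hm0), inv_mul_le_iff₀ hm0]
      linarith
    have hd' : ε / 4 ≤ ‖m⁻¹ • x - m⁻¹ • y‖ := by
      rw [← smul_sub, norm_smul_of_nonneg (inv_pos.2 hm0).le, le_inv_mul_iff₀ hm0]
      nlinarith
    have h2 := hg _ _ (hsc x (le_max_left _ _)) (hsc y (le_max_right _ _)) hd'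
    rw [← smul_add, smul_comm, map_smul_eq_mul, Real.norm_eq_abs, abs_of_pos (inv_pos.2 hm0),
      inv_mul_le_iff₀ hm0] at h2
    have h3 := pow_le_pow_left₀ h0 h2 2
    have h4 : (1 - δ) ^ 2 ≤ 1 - δ := by nlinarith
    have h5 : m ^ 2 - τ * m ≤ (g x ^ 2 + g y ^ 2) / 2 := by
      rcases abs_lt.1 hd with ⟨ha, hb⟩
      have hgx := apply_nonneg g x
      have hgy := apply_nonneg g y
      rcases max_cases (g x) (g y) with ⟨he, hle⟩ | ⟨he, hle⟩
      · rw [hm, he]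
        have hp : 0 ≤ (τ - (g x - g y)) * (g x + g y) := mul_nonneg (by linarith) (by linarith)
        have hq : 0 ≤ τ * (g x - g y) := mul_nonneg hτ.le (by linarith)
        have hr : 0 ≤ τ * g x := mul_nonneg hτ.le hgx
        linarith only [hp, hq, hr, sq (g x), sq (g y)]
      · rw [hm, he]
        have hp : 0 ≤ (τ - (g y - g x)) * (g x + g y) := mul_nonneg (by linarith) (by linarith)
        have hq : 0 ≤ τ * (g y - g x) := mul_nonneg hτ.le (by linarith)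
        have hr : 0 ≤ τ * g y := mul_nonneg hτ.le hgy
        linarith only [hp, hq, hr, sq (g x), sq (g y)]
    have h6 : (m * (1 - δ)) ^ 2 ≤ m ^ 2 * (1 - δ) := by
      rw [mul_pow]; exact mul_le_mul_of_nonneg_left h4 (sq_nonneg m)
    have h7 : ε * δ ≤ 4 * (m * δ) := by nlinarith
    have h8 : m * (4 * τ) ≤ m * (2 * (m * δ)) := mul_le_mul_of_nonneg_left (by linarith) hm0.le
    have h9 : ε / 4 * τ ≤ m * τ := mul_le_mul_of_nonneg_right h1 hτ.le
    have h10 : (0 : ℝ) ≤ ε * τ := (mul_pos hε hτ).le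
    have h11 := min_le_right (τ ^ 2 / 4) (ε * τ / 8)
    linarith only [h3, h5, h6, h8, h9, h10, h11]

end Renorm

open Renorm

theorem hasUCNorm_of_bounded (h : ∀ ε : ℝ, 0 < ε → Bounded X ε) : HasUCNorm X := by
  choose g hg δ hδ hgain using fun j : ℕ =>
    exists_gain (h ((1 / 2 : ℝ) ^ j) (by positivity))
  set Φ : X → ℝ := fun x => ∑' j : ℕ, (1 / 2 : ℝ) ^ (j + 1) * g j x ^ 2 with hΦ
  have hgeo : Summable fun j : ℕ => (1 / 2 : ℝ) ^ (j + 1) := by
    simpa [pow_succ] using summable_geometric_two.mul_right (1 / 2 : ℝ)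
  have hgsum : ∑' j : ℕ, (1 / 2 : ℝ) ^ (j + 1) = 1 := by
    simp_rw [pow_succ]
    rw [tsum_mul_right, tsum_geometric_two]; norm_num
  have hnn : ∀ x (j : ℕ), 0 ≤ (1 / 2 : ℝ) ^ (j + 1) * g j x ^ 2 := fun x j => by positivity
  have hle : ∀ x (j : ℕ), (1 / 2 : ℝ) ^ (j + 1) * g j x ^ 2
      ≤ (1 / 2 : ℝ) ^ (j + 1) * (2 * ‖x‖) ^ 2 := fun x j =>
    mul_le_mul_of_nonneg_left (pow_le_pow_left₀ (apply_nonneg _ _) (hg j x).2 2) (by positivity)
  have hs : ∀ x, Summable fun j : ℕ => (1 / 2 : ℝ) ^ (j + 1) * g j x ^ 2 := fun x =>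
    Summable.of_nonneg_of_le (hnn x) (hle x) (hgeo.mul_right _)
  have hΦle : ∀ x, Φ x ≤ (2 * ‖x‖) ^ 2 := fun x => by
    refine ((hs x).tsum_le_tsum (hle x) (hgeo.mul_right _)).trans (le_of_eq ?_)
    rw [tsum_mul_right, hgsum, one_mul]
  have hΦge : ∀ x, ‖x‖ ^ 2 ≤ Φ x := fun x => by
    refine le_trans (le_of_eq ?_) ((hgeo.mul_right (‖x‖ ^ 2)).tsum_le_tsum (fun j =>
      mul_le_mul_of_nonneg_left (pow_le_pow_left₀ (norm_nonneg _) (hg j x).1 2) (by positivity))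
      (hs x))
    rw [tsum_mul_right, hgsum, one_mul]
  have hΦ0 : ∀ x, 0 ≤ Φ x := fun x => tsum_nonneg (hnn x)
  have hadd : ∀ x y, Real.sqrt (Φ (x + y)) ≤ Real.sqrt (Φ x) + Real.sqrt (Φ y) := by
    intro x y
    rcases eq_or_ne x 0 with rfl | hx
    · rw [zero_add]; linarith [Real.sqrt_nonneg (Φ 0)]
    rcases eq_or_ne y 0 with rfl | hy
    · rw [add_zero]; linarith [Real.sqrt_nonneg (Φ 0)]
    set a : ℝ := Real.sqrt (Φ x) with ha
    set b : ℝ := Real.sqrt (Φ y) with hb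
    have ha0 : 0 < a := Real.sqrt_pos.2 ((pow_pos (norm_pos_iff.2 hx) 2).trans_le (hΦge x))
    have hb0 : 0 < b := Real.sqrt_pos.2 ((pow_pos (norm_pos_iff.2 hy) 2).trans_le (hΦge y))
    rw [Real.sqrt_le_left (by positivity)]
    have hterm : ∀ j : ℕ, (1 / 2 : ℝ) ^ (j + 1) * g j (x + y) ^ 2
        ≤ (1 + b / a) * ((1 / 2 : ℝ) ^ (j + 1) * g j x ^ 2)
          + (1 + a / b) * ((1 / 2 : ℝ) ^ (j + 1) * g j y ^ 2) := fun j => by
      have h1 := pow_le_pow_left₀ (apply_nonneg _ _) (map_add_le_add (g j) x y) 2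
      have h2 : (1 + b / a) * g j x ^ 2 + (1 + a / b) * g j y ^ 2
          = (g j x + g j y) ^ 2 + (g j x * b - g j y * a) ^ 2 / (a * b) := by
        field_simp; ring
      have h3 : (g j x + g j y) ^ 2 ≤ (1 + b / a) * g j x ^ 2 + (1 + a / b) * g j y ^ 2 := by
        rw [h2]; exact le_add_of_nonneg_right (by positivity)
      calc (1 / 2 : ℝ) ^ (j + 1) * g j (x + y) ^ 2
          ≤ (1 / 2 : ℝ) ^ (j + 1) * ((1 + b / a) * g j x ^ 2 + (1 + a / b) * g j y ^ 2) :=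
            mul_le_mul_of_nonneg_left (h1.trans h3) (by positivity)
        _ = _ := by ring
    refine ((hs _).tsum_le_tsum hterm (((hs x).mul_left _).add ((hs y).mul_left _))).trans
      (le_of_eq ?_)
    rw [((hs x).mul_left _).tsum_add ((hs y).mul_left _), tsum_mul_left, tsum_mul_left]
    change (1 + b / a) * Φ x + (1 + a / b) * Φ y = (a + b) ^ 2
    rw [← Real.sq_sqrt (hΦ0 x), ← Real.sq_sqrt (hΦ0 y), ← ha, ← hb]
    field_simp
    ring
  have hsmul : ∀ (r : ℝ) (x : X), Real.sqrt (Φ (r • x)) = ‖r‖ * Real.sqrt (Φ x) := by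
    intro r x
    have : Φ (r • x) = r ^ 2 * Φ x := by
      simp only [hΦ]
      rw [← tsum_mul_left]
      exact tsum_congr fun j => by
        rw [map_smul_eq_mul, mul_pow, Real.norm_eq_abs, sq_abs]; ring
    rw [this, Real.sqrt_mul (sq_nonneg r), Real.sqrt_sq_eq_abs, Real.norm_eq_abs]
  set q : Seminorm ℝ X := Seminorm.of (fun x => Real.sqrt (Φ x)) hadd hsmul with hq
  have hqa : ∀ x, q x = Real.sqrt (Φ x) := fun x => rfl
  refine ⟨q, 1, 2, one_pos, two_pos, fun x => ⟨?_, ?_⟩, fun ε hε => ?_⟩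
  · rw [hqa, one_mul]; exact Real.le_sqrt_of_sq_le (hΦge x)
  · rw [hqa, Real.sqrt_le_left (by positivity)]; exact hΦle x
  obtain ⟨j, hj⟩ := exists_pow_lt_of_lt_one (show (0 : ℝ) < ε / 8 by positivity)
    (show (1 / 2 : ℝ) < 1 by norm_num)
  set d : ℝ := min (δ j) 1 with hd
  have hd0 : 0 < d := lt_min (hδ j) one_pos
  set τ : ℝ := ε * d / 8 with hτ
  have hτ0 : 0 < τ := by positivity
  set c : ℝ := (1 / 2 : ℝ) ^ (j + 1) * min (τ ^ 2 / 4) (ε * τ / 8) with hc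
  have hc0 : 0 < c := mul_pos (by positivity) (lt_min (by positivity) (by positivity))
  refine ⟨c / 2, by positivity, fun x y hx hy hxy => ?_⟩
  have hnorm : ∀ u, ‖u‖ ≤ q u ∧ q u ≤ 2 * ‖u‖ := fun u =>
    ⟨by rw [hqa]; exact Real.le_sqrt_of_sq_le (hΦge u),
      by rw [hqa, Real.sqrt_le_left (by positivity)]; exact hΦle u⟩
  have hdist : ε / 2 ≤ ‖x - y‖ := by linarith [(hnorm (x - y)).2]
  have hterm : ∀ i : ℕ, (1 / 2 : ℝ) ^ (i + 1) * g i ((1 / 2 : ℝ) • (x + y)) ^ 2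
      + (if i = j then c else 0)
      ≤ (1 / 2) * ((1 / 2 : ℝ) ^ (i + 1) * g i x ^ 2)
        + (1 / 2) * ((1 / 2 : ℝ) ^ (i + 1) * g i y ^ 2) := by
    intro i
    rcases eq_or_ne i j with rfl | hij
    · have := mul_le_mul_of_nonneg_left (sq_gain hd0 (min_le_right _ _) hτ0
        (le_of_eq (by rw [hτ]; ring))
        (fun a b ha hb hab => (hgain i a b ha hb (by linarith)).trans
          (by linarith [min_le_left (δ i) 1]))
        (fun u => (hg i u).1)
        ((hg i x).2.trans (by linarith [(hnorm x).1]))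
        ((hg i y).2.trans (by linarith [(hnorm y).1])) hdist)
        (show (0 : ℝ) ≤ (1 / 2) ^ (i + 1) by positivity)
      rw [if_pos rfl, hc]
      linarith
    · rw [if_neg hij, add_zero]
      have h1 : g i ((1 / 2 : ℝ) • (x + y)) ≤ (g i x + g i y) / 2 := by
        rw [map_smul_eq_mul, Real.norm_eq_abs, abs_of_pos (by norm_num : (0 : ℝ) < 1 / 2)]
        linarith [map_add_le_add (g i) x y]
      have h2 := pow_le_pow_left₀ (apply_nonneg _ _) h1 2
      have h3 : g i ((1 / 2 : ℝ) • (x + y)) ^ 2 ≤ (g i x ^ 2 + g i y ^ 2) / 2 := by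
        nlinarith [sq_nonneg (g i x - g i y)]
      have := mul_le_mul_of_nonneg_left h3 (show (0 : ℝ) ≤ (1 / 2) ^ (i + 1) by positivity)
      linarith
  have hsingle : Summable fun i : ℕ => if i = j then c else 0 :=
    summable_of_ne_finset_zero (s := {j}) fun i hi => if_neg (by simpa using hi)
  have hmain := ((hs _).add hsingle).tsum_le_tsum hterm (((hs x).mul_left _).add ((hs y).mul_left _))
  rw [(hs _).tsum_add hsingle, ((hs x).mul_left _).tsum_add ((hs y).mul_left _), tsum_mul_left,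
    tsum_mul_left, tsum_ite_eq] at hmain
  change Φ _ + c ≤ 1 / 2 * Φ x + 1 / 2 * Φ y at hmain
  have hx1 : Φ x ≤ 1 := by rw [hqa, Real.sqrt_le_one] at hx; exact hx
  have hy1 : Φ y ≤ 1 := by rw [hqa, Real.sqrt_le_one] at hy; exact hy
  have h0 := hΦ0 ((1 / 2 : ℝ) • (x + y))
  rw [hqa, Real.sqrt_le_left (by linarith)]
  nlinarith

end Vale.Agent.P125.Full
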