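import Vale.Agent.P125.Full.Defs

/-!
P125: an unbounded expected number of separated splittings gives arbitrarily long sequences in
the ball whose initial and final convex hulls are uniformly separated.

In `K = {(z, r / M) | (z, r) ∈ reach ε N}` (with `M` the supremum of `r`), every slice inside
`{t > 0}` contains, within `2 / M` of the top, two points with `ε`-separated first coordinates.
Hence from a slice one can pass to a deeper slice avoiding any given number of cylinders of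
radius `ε / 8` (convexity and Hahn-Banach); nested slices give the sequence.
-/

namespace Vale.Agent.P125.Full

open Finset

variable {X : Type*} [NormedAddCommGroup X] [NormedSpace ℝ X]

section Slices

variable {ε : ℝ}

/-- The normalised set of reachable pairs. -/
def region (X : Type*) [NormedAddCommGroup X] [NormedSpace ℝ X] (ε : ℝ) (N : ℕ) (M : ℝ) :
    Set (X × ℝ) :=
  {w | (w.1, M * w.2) ∈ reach ε N}

lemma reach_subset_succ (ε : ℝ) (N : ℕ) : reach (X := X) ε N ⊆ reach ε (N + 1) :=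
  fun _ hw => subset_convexHull ℝ _ (Or.inl hw)

lemma reach_mono (ε : ℝ) : Monotone fun N => reach (X := X) ε N :=
  monotone_nat_of_le_succ fun N => reach_subset_succ ε N

lemma reach_convex (ε : ℝ) : ∀ N, Convex ℝ (reach (X := X) ε N)
  | 0 => (convex_closedBall _ _).prod (convex_singleton _)
  | _ + 1 => convex_convexHull ℝ _

lemma reach_mem (ε : ℝ) : ∀ (N : ℕ) (w : X × ℝ), w ∈ reach ε N →
    ‖w.1‖ ≤ 1 ∧ 0 ≤ w.2 ∧ w.2 ≤ (N : ℝ) := by
  intro N
  induction N with
  | zero =>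
    rintro ⟨z, r⟩ ⟨hz, hr⟩
    simp only [Set.mem_singleton_iff] at hr
    subst hr
    simpa using hz
  | succ N ih =>
    have hc : Convex ℝ (Metric.closedBall (0 : X) 1 ×ˢ Set.Icc (0 : ℝ) (N + 1)) :=
      (convex_closedBall _ _).prod (convex_Icc _ _)
    have hsub : reach ε N ∪ sepStep ε (reach ε N) ⊆
        Metric.closedBall (0 : X) 1 ×ˢ Set.Icc (0 : ℝ) (N + 1) := by
      rintro w (hw | ⟨a, ha, b, hb, -, rfl⟩)
      · obtain ⟨h1, h2, h3⟩ := ih w hw
        exact ⟨mem_closedBall_zero_iff.2 h1, h2, by linarith⟩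
      · obtain ⟨a1, a2, a3⟩ := ih a ha
        obtain ⟨b1, b2, b3⟩ := ih b hb
        refine ⟨mem_closedBall_zero_iff.2 ?_, by positivity, by linarith⟩
        show ‖(1 / 2 : ℝ) • (a.1 + b.1)‖ ≤ 1
        rw [norm_smul, Real.norm_of_nonneg (by norm_num : (0 : ℝ) ≤ 1 / 2)]
        linarith [norm_add_le a.1 b.1]
    intro w hw
    obtain ⟨h1, h2, h3⟩ := convexHull_min hsub hc hw
    exact ⟨mem_closedBall_zero_iff.1 h1, h2, by push_cast; exact h3⟩

lemma base_mem_reach (ε : ℝ) (N : ℕ) {z : X} (hz : ‖z‖ ≤ 1) :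
    ((z, 0) : X × ℝ) ∈ reach ε N :=
  reach_mono ε (Nat.zero_le N) ⟨mem_closedBall_zero_iff.2 hz, rfl⟩

/-- Every reachable pair is a convex combination of base pairs and of split pairs. -/
lemma reach_subset_hull (ε : ℝ) (N : ℕ) : ∀ k ≤ N, reach (X := X) ε k ⊆
    convexHull ℝ ((Metric.closedBall (0 : X) 1 ×ˢ {(0 : ℝ)}) ∪ sepStep ε (reach ε N)) := by
  intro k hk
  induction k with
  | zero => exact fun w hw => subset_convexHull ℝ _ (Or.inl hw)
  | succ k ih =>
    refine convexHull_min (Set.union_subset (ih (by omega)) ?_) (convex_convexHull ℝ _)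
    rintro w ⟨a, ha, b, hb, hab, rfl⟩
    exact subset_convexHull ℝ _ (Or.inr ⟨a, reach_mono ε (by omega) ha, b,
      reach_mono ε (by omega) hb, hab, rfl⟩)

variable {N : ℕ} {M : ℝ}

lemma region_convex : Convex ℝ (region X ε N M) :=
  (reach_convex ε N).linear_preimage
    ((LinearMap.fst ℝ X ℝ).prod (M • LinearMap.snd ℝ X ℝ))

lemma region_base {z : X} (hz : ‖z‖ ≤ 1) : ((z, 0) : X × ℝ) ∈ region X ε N M := by
  simpa [region] using base_mem_reach ε N hz

lemma region_norm (hM : 0 < M) (hsup : ∀ w ∈ reach (X := X) ε N, w.2 ≤ M) {w : X × ℝ}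
    (hw : w ∈ region X ε N M) : ‖w‖ ≤ 1 := by
  obtain ⟨h1, h2, -⟩ := reach_mem ε N _ hw
  have h3 := hsup _ hw
  simp only at h1 h2 h3
  rw [Prod.norm_def, max_le_iff, Real.norm_eq_abs, abs_le]
  exact ⟨h1, by nlinarith, by nlinarith⟩

/-- A slice away from the base contains, near its top, two separated points. -/
lemma top_pair (hM : 0 < M) (hsup : ∀ w ∈ reach (X := X) ε N, w.2 ≤ M)
    (F : X × ℝ →L[ℝ] ℝ) (hF : ‖F‖ ≤ 1) {α τ : ℝ} (hτ : 0 < τ)
    (hbase : ∀ w ∈ region X ε N M, w.2 = 0 → F w ≤ α) (hne : ∃ p ∈ region X ε N M, α < F p) :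
    ∃ a ∈ region X ε N M, ∃ b ∈ region X ε N M, ε ≤ ‖a.1 - b.1‖ ∧
      ∀ w ∈ region X ε N M, F w ≤ F a + (2 / M + 2 * τ) ∧ F w ≤ F b + (2 / M + 2 * τ) := by
  obtain ⟨p, hp, hpα⟩ := hne
  set T := F '' region X ε N M with hT
  have hTne : T.Nonempty := ⟨F p, p, hp, rfl⟩
  have hle : ∀ (v : X × ℝ), ‖v‖ ≤ 1 → |F v| ≤ 1 := fun v hv => by
    rw [← Real.norm_eq_abs]
    calc ‖F v‖ ≤ ‖F‖ * ‖v‖ := F.le_opNorm v
      _ ≤ 1 := by nlinarith [norm_nonneg F, norm_nonneg v]
  have hTb : BddAbove T := ⟨1, by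
    rintro _ ⟨v, hv, rfl⟩
    exact (abs_le.1 (hle v (region_norm hM hsup hv))).2⟩
  have hs : ∀ w ∈ region X ε N M, F w ≤ sSup T := fun w hw => le_csSup hTb ⟨w, hw, rfl⟩
  obtain ⟨_, ⟨w, hw, rfl⟩, hwt⟩ := exists_lt_of_lt_csSup hTne
    (show max α (sSup T - τ) < sSup T from max_lt (hpα.trans_le (hs p hp)) (by linarith))
  let G : X × ℝ →ₗ[ℝ] ℝ :=
    (F : X × ℝ →ₗ[ℝ] ℝ).comp ((LinearMap.fst ℝ X ℝ).prod (M⁻¹ • LinearMap.snd ℝ X ℝ))
  have hGa : ∀ v : X × ℝ, G v = F (v.1, M⁻¹ * v.2) := fun v => rfl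
  have hGw : G (w.1, M * w.2) = F w := by
    rw [hGa]
    congr 1
    ext
    · rfl
    · simp [hM.ne']
  obtain ⟨v, hv, hvw⟩ : ∃ v ∈ (Metric.closedBall (0 : X) 1 ×ˢ {(0 : ℝ)})
      ∪ sepStep ε (reach ε N), F w ≤ G v := by
    by_contra hcon
    push Not at hcon
    have h := convexHull_min (t := {v | G v < F w}) (fun v hv => hcon v hv)
      (convex_halfSpace_lt G.isLinear _) (reach_subset_hull ε N N le_rfl hw)
    simp only [Set.mem_ofPred_eq, hGw] at h
    exact lt_irrefl _ h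
  rcases hv with ⟨hv1, hv2⟩ | ⟨a, ha, b, hb, hab, rfl⟩
  · exfalso
    simp only [Set.mem_singleton_iff] at hv2
    have h := hbase _ (region_base (mem_closedBall_zero_iff.1 hv1)) rfl
    rw [hGa, hv2, mul_zero] at hvw
    linarith [le_max_left α (sSup T - τ)]
  have ha' : (a.1, M⁻¹ * a.2) ∈ region X ε N M := by
    simpa [region, mul_inv_cancel_left₀ hM.ne'] using ha
  have hb' : (b.1, M⁻¹ * b.2) ∈ region X ε N M := by
    simpa [region, mul_inv_cancel_left₀ hM.ne'] using hb
  refine ⟨_, ha', _, hb', hab, ?_⟩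
  have e : G ((1 / 2 : ℝ) • (a.1 + b.1), (a.2 + b.2) / 2 + 1)
      = (F (a.1, M⁻¹ * a.2) + F (b.1, M⁻¹ * b.2)) / 2 + M⁻¹ * F (0, 1) := by
    have hd : (((1 / 2 : ℝ) • (a.1 + b.1), M⁻¹ * ((a.2 + b.2) / 2 + 1)) : X × ℝ)
        = (1 / 2 : ℝ) • ((a.1, M⁻¹ * a.2) + (b.1, M⁻¹ * b.2)) + M⁻¹ • ((0 : X), (1 : ℝ)) := by
      ext
      · simp
      · simp; ring
    rw [hGa, hd, map_add, map_smul, map_smul, map_add]
    simp only [smul_eq_mul]
    ring
  rw [e] at hvw
  have h01 : F ((0 : X), (1 : ℝ)) ≤ 1 := (abs_le.1 (hle _ (by simp))).2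
  have h02 : M⁻¹ * F ((0 : X), (1 : ℝ)) ≤ M⁻¹ * 1 :=
    mul_le_mul_of_nonneg_left h01 (inv_nonneg.2 hM.le)
  intro u hu
  have := hs u hu
  have := hs _ ha'
  have := hs _ hb'
  have := le_max_right α (sSup T - τ)
  rw [div_eq_mul_inv]
  constructor <;> linarith

/-- A point far from a convex set is cut off by a functional of norm at most one. -/
lemma exists_functional {C : Set (X × ℝ)} (hC : Convex ℝ C) (hne : C.Nonempty) {p : X × ℝ}
    {g : ℝ} (hg : 0 < g) (h : ∀ c ∈ C, g ≤ ‖p - c‖) :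
    ∃ G : X × ℝ →L[ℝ] ℝ, ‖G‖ ≤ 1 ∧ ∀ c ∈ C, G c + g / 2 ≤ G p := by
  have hp : p ∉ Metric.thickening g C := by
    intro hp
    obtain ⟨c, hc, hd⟩ := Metric.mem_thickening_iff.1 hp
    rw [dist_eq_norm] at hd
    linarith [h c hc]
  obtain ⟨f, hf⟩ := geometric_hahn_banach_open_point (hC.thickening g) Metric.isOpen_thickening hp
  obtain ⟨c₀, hc₀⟩ := hne
  have hf0 : 0 < ‖f‖ := by
    refine norm_pos_iff.2 fun h0 => ?_
    have := hf c₀ (Metric.self_subset_thickening hg C hc₀)
    simp [h0] at this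
  obtain ⟨v, hv, hfv⟩ := f.exists_lt_apply_of_lt_opNorm (r := ‖f‖ / 2) (by linarith)
  obtain ⟨v, hv, hfv⟩ : ∃ v : X × ℝ, ‖v‖ < 1 ∧ ‖f‖ / 2 < f v := by
    rcases le_total 0 (f v) with hs | hs
    · exact ⟨v, hv, by rwa [Real.norm_of_nonneg hs] at hfv⟩
    · exact ⟨-v, by rwa [norm_neg], by rwa [map_neg, ← Real.norm_of_nonpos hs]⟩
  refine ⟨‖f‖⁻¹ • f, ?_, fun c hc => ?_⟩
  · rw [norm_smul, norm_inv, norm_norm, inv_mul_cancel₀ hf0.ne']
  have hcv : c + g • v ∈ Metric.thickening g C := by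
    refine Metric.mem_thickening_iff.2 ⟨c, hc, ?_⟩
    rw [dist_eq_norm, add_sub_cancel_left, norm_smul, Real.norm_of_nonneg hg.le]
    calc g * ‖v‖ < g * 1 := mul_lt_mul_of_pos_left hv hg
      _ = g := mul_one g
  have h1 := hf _ hcv
  rw [map_add, map_smul, smul_eq_mul] at h1
  have h2 := mul_le_mul_of_nonneg_left hfv.le hg.le
  have h3 : f c + g / 2 * ‖f‖ ≤ f p := by linarith
  have h4 := mul_le_mul_of_nonneg_left h3 (inv_nonneg.2 hf0.le)
  simp only [smul_apply, smul_eq_mul]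
  calc _ = ‖f‖⁻¹ * (f c + g / 2 * ‖f‖) := by field_simp
    _ ≤ _ := h4

/-- A slice keeps a point away from the hull of its complement and finitely many small cylinders. -/
lemma exists_far (hε : 0 < ε) (hε2 : ε ≤ 2) (hM : 0 < M)
    (hsup : ∀ w ∈ reach (X := X) ε N, w.2 ≤ M) (F : X × ℝ →L[ℝ] ℝ) (hF : ‖F‖ ≤ 1) {α g : ℝ}
    (hg : 0 < g) (hg1 : g ≤ 1) (hbase : ∀ w ∈ region X ε N M, w.2 = 0 → F w ≤ α)
    (htop : ∃ p ∈ region X ε N M, α + g ≤ F p) :
    ∀ Z : Finset X, 2 / M ≤ g * (ε / 100) ^ Z.card →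
      ∃ p ∈ region X ε N M, ∀ c ∈ convexHull ℝ ({w ∈ region X ε N M | F w ≤ α} ∪
        ⋃ z ∈ Z, {w ∈ region X ε N M | ‖w.1 - z‖ ≤ ε / 8}),
        g * (ε / 100) ^ Z.card ≤ ‖p - c‖ := by
  classical
  intro Z
  induction Z using Finset.induction_on with
  | empty =>
    intro _
    obtain ⟨p, hp, hpg⟩ := htop
    refine ⟨p, hp, fun c hc => ?_⟩
    have hA : c ∈ {v : X × ℝ | F v ≤ α} := by
      refine convexHull_min ?_ (convex_halfSpace_le (F : X × ℝ →ₗ[ℝ] ℝ).isLinear α) hc
      rintro v (hv | hv)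
      · exact hv.2
      · simp at hv
    have h1 := (le_abs_self (F (p - c))).trans (F.le_opNorm (p - c))
    rw [map_sub] at h1
    have h2 : ‖F‖ * ‖p - c‖ ≤ ‖p - c‖ := mul_le_of_le_one_left (norm_nonneg _) hF
    simp only [Set.mem_ofPred_eq] at hA
    simp only [Finset.card_empty, pow_zero, mul_one]
    linarith
  | @insert z Z hz ih =>
    intro hM2
    rw [Finset.card_insert_of_notMem hz, pow_succ, ← mul_assoc] at hM2 ⊢
    set g' := g * (ε / 100) ^ Z.card with hg'
    have hg'0 : 0 < g' := by positivity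
    have hg'1 : g' ≤ 1 := by
      have := pow_le_one₀ (n := Z.card) (show (0 : ℝ) ≤ ε / 100 by positivity) (by linarith)
      calc g' ≤ g * 1 := mul_le_mul_of_nonneg_left this hg.le
        _ ≤ 1 := by linarith
    obtain ⟨p, hp, hfar⟩ := ih (hM2.trans (mul_le_of_le_one_right hg'0.le (by linarith)))
    set C := convexHull ℝ ({w ∈ region X ε N M | F w ≤ α} ∪
        ⋃ z ∈ Z, {w ∈ region X ε N M | ‖w.1 - z‖ ≤ ε / 8}) with hC
    set D := {w ∈ region X ε N M | ‖w.1 - z‖ ≤ ε / 8} with hD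
    have hsub : convexHull ℝ ({w ∈ region X ε N M | F w ≤ α} ∪
        ⋃ z' ∈ insert z Z, {w ∈ region X ε N M | ‖w.1 - z'‖ ≤ ε / 8}) ⊆
        convexHull ℝ (C ∪ D) := by
      refine convexHull_mono (Set.union_subset ?_ ?_)
      · exact (Set.subset_union_left.trans (subset_convexHull ℝ _)).trans Set.subset_union_left
      · rw [Finset.set_biUnion_insert]
        refine Set.union_subset Set.subset_union_right ?_
        exact (Set.subset_union_right.trans (subset_convexHull ℝ _)).trans Set.subset_union_left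
    have hCne : C.Nonempty :=
      ⟨(0, 0), subset_convexHull ℝ _ (Or.inl ⟨region_base (by simp),
        hbase _ (region_base (by simp)) rfl⟩)⟩
    rcases D.eq_empty_or_nonempty with hDe | hDne
    · refine ⟨p, hp, fun c hc => le_trans ?_ (hfar c ?_)⟩
      · exact mul_le_of_le_one_right hg'0.le (by linarith)
      · have := hsub hc
        rwa [hDe, Set.union_empty, (convex_convexHull ℝ _).convexHull_eq] at this
    obtain ⟨G, hG1, hG⟩ := exists_functional (convex_convexHull ℝ _) hCne hg'0 hfar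
    have hbase' : ∀ w ∈ region X ε N M, w.2 = 0 → G w ≤ G p - g' / 2 := fun w hw h0 => by
      have := hG w (subset_convexHull ℝ _ (Or.inl ⟨hw, hbase w hw h0⟩))
      linarith
    obtain ⟨a, ha, b, hb, hab, htop'⟩ := top_pair hM hsup G hG1
      (τ := g' * (ε / 100) / 2) (by positivity) hbase' ⟨p, hp, by linarith⟩
    by_contra hcon
    push Not at hcon
    have hDc : Convex ℝ D := by
      refine region_convex.inter ?_
      have := (convex_closedBall z (ε / 8)).linear_preimage (LinearMap.fst ℝ X ℝ)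
      intro x hx y hy s t hs ht hst
      have h := this (show x ∈ LinearMap.fst ℝ X ℝ ⁻¹' Metric.closedBall z (ε / 8) by
          simp only [Set.mem_preimage, LinearMap.fst_apply, Metric.mem_closedBall, dist_eq_norm]
          exact hx)
        (show y ∈ LinearMap.fst ℝ X ℝ ⁻¹' Metric.closedBall z (ε / 8) by
          simp only [Set.mem_preimage, LinearMap.fst_apply, Metric.mem_closedBall, dist_eq_norm]
          exact hy) hs ht hst
      simp only [Set.mem_preimage, LinearMap.fst_apply, Metric.mem_closedBall, dist_eq_norm] at h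
      exact h
    have key : ∀ w ∈ region X ε N M,
        (∀ u ∈ region X ε N M, G u ≤ G w + (2 / M + 2 * (g' * (ε / 100) / 2))) →
          ‖w.1 - z‖ < ε / 2 := by
      intro w hw hwtop
      obtain ⟨c, hc, hcw⟩ := hcon w hw
      have hc2 := hsub hc
      rw [(convex_convexHull ℝ _).convexHull_union hDc hCne hDne] at hc2
      obtain ⟨c1, hc1, d, hd, hseg⟩ := mem_convexJoin.1 hc2
      obtain ⟨l, m, hl, hm, hlm, rfl⟩ := hseg
      set κ := g' * (ε / 100) with hκ
      set E := w - (l • c1 + m • d) with hE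
      have hEn : ‖E‖ ≤ κ := hcw.le
      have hm' : m = 1 - l := by linarith
      have hGw : G w = l * G c1 + m * G d + G E := by
        rw [hE, map_sub, map_add, map_smul, map_smul]
        simp only [smul_eq_mul]; ring
      have hGE : G E ≤ κ := by
        have h1 := (le_abs_self (G E)).trans (G.le_opNorm E)
        have h2 : ‖G‖ * ‖E‖ ≤ ‖E‖ := mul_le_of_le_one_left (norm_nonneg _) hG1
        linarith
      have t1 := hwtop p hp
      have t2 := hwtop d hd.1
      have t3 := hG c1 hc1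
      have l1 : l * (g' / 2) ≤ 2 / M + 2 * (κ / 2) + κ := by
        subst hm'
        have p1 := mul_le_mul_of_nonneg_left t2 hm
        have p2 := mul_le_mul_of_nonneg_left t3 hl
        have p3 := mul_le_mul_of_nonneg_left t1 hl
        linarith
      have l2 : l * (g' / 2) ≤ 3 * (ε / 100) * g' := by linarith
      have l3 : l ≤ 6 * (ε / 100) := by
        refine le_of_mul_le_mul_right ?_ (half_pos hg'0)
        linarith
      have hc1n : c1 ∈ region X ε N M := by
        refine convexHull_min ?_ region_convex hc1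
        rintro v (hv | hv)
        · exact hv.1
        · simp only [Set.mem_iUnion] at hv
          obtain ⟨z', -, hv⟩ := hv
          exact hv.1
      have n1 : ‖c1.1‖ ≤ 1 := (norm_fst_le c1).trans (region_norm hM hsup hc1n)
      have n2 : ‖d.1‖ ≤ 1 := (norm_fst_le d).trans (region_norm hM hsup hd.1)
      have n3 : ‖E.1‖ ≤ κ := (norm_fst_le E).trans hEn
      have e : w.1 - z = E.1 + (l • (c1.1 - d.1) + (d.1 - z)) := by
        subst hm'
        simp only [hE, Prod.fst_sub, Prod.fst_add, Prod.smul_fst, smul_sub, sub_smul, one_smul]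
        abel
      have hκε : κ ≤ ε / 100 := mul_le_of_le_one_left (by positivity) hg'1
      calc ‖w.1 - z‖ ≤ ‖E.1‖ + (‖l • (c1.1 - d.1)‖ + ‖d.1 - z‖) := by
            rw [e]; exact (norm_add_le _ _).trans (add_le_add le_rfl (norm_add_le _ _))
        _ ≤ κ + (l * 2 + ε / 8) := by
            refine add_le_add n3 (add_le_add ?_ hd.2)
            rw [norm_smul, Real.norm_of_nonneg hl]
            exact mul_le_mul_of_nonneg_left ((norm_sub_le _ _).trans (by linarith)) hl
        _ < ε / 2 := by linarith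
    have ka := key a ha fun u hu => (htop' u hu).1
    have kb := key b hb fun u hu => (htop' u hu).2
    have := norm_sub_le_norm_sub_add_norm_sub a.1 z b.1
    rw [norm_sub_rev z b.1] at this
    linarith

variable (X) in
/-- The data of a slice of the region lying away from the base. -/
structure Slice (ε : ℝ) (N : ℕ) (M g : ℝ) where
  /-- the functional -/
  F : X × ℝ →L[ℝ] ℝ
  /-- the level -/
  α : ℝ
  norm_le : ‖F‖ ≤ 1
  base : ∀ w ∈ region X ε N M, w.2 = 0 → F w ≤ α
  top : ∃ p ∈ region X ε N M, α + g ≤ F p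

variable {g : ℝ}

/-- The set of points of a slice. -/
def Slice.pts (S : Slice X ε N M g) : Set (X × ℝ) :=
  {w ∈ region X ε N M | S.α < S.F w}

lemma Slice.refine_cylinders (hε : 0 < ε) (hε2 : ε ≤ 2) (hM : 0 < M)
    (hsup : ∀ w ∈ reach (X := X) ε N, w.2 ≤ M) (S : Slice X ε N M g) (hg : 0 < g) (hg1 : g ≤ 1)
    (Z : Finset X) {R : ℕ} (hZ : Z.card ≤ R) (hMg : 2 / M ≤ g * (ε / 100) ^ R) :
    ∃ S' : Slice X ε N M (g * (ε / 100) ^ R / 2), S'.pts ⊆ S.pts ∧
      ∀ w ∈ S'.pts, ∀ z ∈ Z, ε / 8 < ‖w.1 - z‖ := by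
  have hpow : (ε / 100) ^ R ≤ (ε / 100) ^ Z.card :=
    pow_le_pow_of_le_one (by positivity) (by linarith) hZ
  have hgg := mul_le_mul_of_nonneg_left hpow hg.le
  obtain ⟨p, hp, hfar⟩ := exists_far hε hε2 hM hsup S.F S.norm_le hg hg1 S.base S.top Z
    (hMg.trans hgg)
  obtain ⟨G, hG1, hG⟩ := exists_functional (convex_convexHull ℝ _)
    ⟨(0, 0), subset_convexHull ℝ _ (Or.inl ⟨region_base (by simp),
      S.base _ (region_base (by simp)) rfl⟩)⟩
    (show 0 < g * (ε / 100) ^ R by positivity) (fun c hc => hgg.trans (hfar c hc))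
  refine ⟨⟨G, G p - g * (ε / 100) ^ R / 2, hG1, fun w hw h0 => ?_, p, hp, by linarith⟩, ?_, ?_⟩
  · have := hG w (subset_convexHull ℝ _ (Or.inl ⟨hw, S.base w hw h0⟩))
    linarith
  · rintro w ⟨hw, hwG⟩
    refine ⟨hw, lt_of_not_ge fun hle => ?_⟩
    have := hG w (subset_convexHull ℝ _ (Or.inl ⟨hw, hle⟩))
    simp only at hwG
    linarith
  · rintro w ⟨hw, hwG⟩ z hz
    refine lt_of_not_ge fun hle => ?_
    have := hG w (subset_convexHull ℝ _ (Or.inr
      (Set.mem_iUnion₂.2 ⟨z, hz, ⟨hw, hle⟩⟩)))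
    simp only at hwG
    linarith

lemma Slice.pts_nonempty (S : Slice X ε N M g) (hg : 0 < g) : S.pts.Nonempty := by
  obtain ⟨p, hp, h⟩ := S.top
  exact ⟨p, hp, by linarith⟩

lemma Slice.pts_convex (S : Slice X ε N M g) : Convex ℝ S.pts :=
  region_convex.inter (convex_halfSpace_gt (S.F : X × ℝ →ₗ[ℝ] ℝ).isLinear _)

end Slices

theorem separated_of_not_bounded {ε : ℝ} (hε : 0 < ε) (h : ¬ Bounded X ε) (n : ℕ) :
    ∃ x : ℕ → X, (∀ i, ‖x i‖ ≤ 1) ∧
      ∀ b ≤ n, ∀ u v : ℕ → ℝ, (∀ i, 0 ≤ u i) → (∀ i, 0 ≤ v i) →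
        ∑ i ∈ range b, u i = 1 → ∑ i ∈ Ico b n, v i = 1 →
        ε / 32 ≤ ‖∑ i ∈ range b, u i • x i - ∑ i ∈ Ico b n, v i • x i‖ := by
  classical
  have hε2 : ε ≤ 2 := by
    by_contra hcon
    refine h ⟨0, fun N w hw => ?_⟩
    have hN : ∀ N, reach (X := X) ε N ⊆ Metric.closedBall (0 : X) 1 ×ˢ {(0 : ℝ)} := by
      intro N
      induction N with
      | zero => exact subset_rfl
      | succ N ih =>
        refine convexHull_min (Set.union_subset ih ?_)
          ((convex_closedBall _ _).prod (convex_singleton _))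
        rintro w ⟨a, ha, b, hb, hab, -⟩
        have := (reach_mem ε N a ha).1
        have := (reach_mem ε N b hb).1
        have := norm_sub_le a.1 b.1
        exfalso; linarith
    exact le_of_eq (hN N hw).2
  obtain ⟨q, hq⟩ := exists_nat_ge (16 * ((n : ℝ) + 1) / ε)
  set R := (q + 1) ^ n with hR
  set γ := (ε / 100) ^ R / 2 with hγ
  have hγ0 : 0 < γ := by positivity
  have hγ1 : γ ≤ 1 := by
    have := pow_le_one₀ (n := R) (show (0 : ℝ) ≤ ε / 100 by positivity) (by linarith)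
    linarith
  have hnb : ∀ M : ℝ, ∃ N, ∃ w ∈ reach (X := X) ε N, M < w.2 := by
    intro M
    by_contra hcon
    push Not at hcon
    exact h ⟨M, hcon⟩
  obtain ⟨N, w₀, hw₀, hw₀M⟩ := hnb (8 / (γ ^ (n + 1)))
  set M := sSup (Prod.snd '' reach (X := X) ε N) with hMdef
  have hbdd : BddAbove (Prod.snd '' reach (X := X) ε N) :=
    ⟨(N : ℝ), by rintro _ ⟨w, hw, rfl⟩; exact (reach_mem ε N w hw).2.2⟩
  have hsup : ∀ w ∈ reach (X := X) ε N, w.2 ≤ M := fun w hw => le_csSup hbdd ⟨w, hw, rfl⟩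
  have hMbig : 8 / γ ^ (n + 1) < M := hw₀M.trans_le (hsup _ hw₀)
  have hM : 0 < M := lt_trans (by positivity) hMbig
  have hM2 : ∀ k < n + 1, 2 / M ≤ 1 / 4 * γ ^ k * (ε / 100) ^ R := by
    intro k hk
    have h1 : γ ^ (n + 1) ≤ γ ^ (k + 1) := pow_le_pow_of_le_one hγ0.le hγ1 (by omega)
    have h2 : 8 < M * γ ^ (n + 1) := (div_lt_iff₀ (by positivity)).1 hMbig
    have h3 := mul_le_mul_of_nonneg_left h1 hM.le
    have h4 : (ε / 100) ^ R = 2 * γ := by rw [hγ]; ring
    rw [h4, div_le_iff₀ hM]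
    rw [pow_succ γ k] at h3
    linarith
  obtain ⟨_, ⟨p₀, hp₀, rfl⟩, hp₀M⟩ := exists_lt_of_lt_csSup
    (show (Prod.snd '' reach (X := X) ε N).Nonempty from ⟨_, _, hw₀, rfl⟩)
    (show 3 / 4 * M < sSup (Prod.snd '' reach (X := X) ε N) by rw [← hMdef]; linarith)
  let S₀ : Slice X ε N M (1 / 4 * γ ^ 0) :=
    { F := ContinuousLinearMap.snd ℝ X ℝ
      α := 1 / 2
      norm_le := ContinuousLinearMap.norm_snd_le ℝ X ℝ
      base := fun w _ h0 => by
        simp only [ContinuousLinearMap.coe_snd']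
        rw [h0]; norm_num
      top := ⟨(p₀.1, M⁻¹ * p₀.2), by simpa [region, mul_inv_cancel_left₀ hM.ne'] using hp₀, by
        have : 3 / 4 < M⁻¹ * p₀.2 := by
          rw [inv_mul_eq_div, lt_div_iff₀ hM]; linarith
        simp only [ContinuousLinearMap.coe_snd', pow_zero]
        linarith⟩ }
  let cen : (ℕ → X) → ℕ → Finset X := fun x b =>
    (univ : Finset (Fin b → Fin (q + 1))).image
      fun k => ∑ i : Fin b, ((k i : ℝ) / q) • x i
  have hcard : ∀ x b, b ≤ n → (cen x b).card ≤ R := fun x b hb => by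
    refine card_image_le.trans ?_
    simp only [Finset.card_univ, Fintype.card_fun, Fintype.card_fin]
    exact Nat.pow_le_pow_right (by omega) hb
  have build : ∀ k ≤ n, ∃ (x : ℕ → X) (T : ℕ → Set (X × ℝ)) (S : Slice X ε N M (1 / 4 * γ ^ k)),
      T k = S.pts ∧ (∀ i, ‖x i‖ ≤ 1) ∧ (∀ b ≤ k, Convex ℝ (T b)) ∧
      (∀ b ≤ k, ∀ i, b ≤ i → i ≤ k → T i ⊆ T b) ∧
      (∀ i < k, ∃ w ∈ T i, w.1 = x i) ∧
      ∀ b, 1 ≤ b → b ≤ k → ∀ w ∈ T b, ∀ z ∈ cen x b, ε / 8 < ‖w.1 - z‖ := by
    intro k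
    induction k with
    | zero =>
      intro _
      refine ⟨fun _ => 0, fun _ => S₀.pts, S₀, rfl, fun i => by simp, fun b _ => S₀.pts_convex,
        fun b _ i _ _ => subset_rfl, fun i hi => absurd hi (Nat.not_lt_zero i), fun b h1 h2 => ?_⟩
      omega
    | succ k ih =>
      intro hk
      obtain ⟨x, T, S, hT, hx, hcv, hnest, hmem, hav⟩ := ih (by omega)
      have hgk : 0 < 1 / 4 * γ ^ k := by positivity
      obtain ⟨w, hw⟩ := S.pts_nonempty hgk
      let x' := Function.update x k w.1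
      have hx' : ∀ i, ‖x' i‖ ≤ 1 := fun i => by
        by_cases hi : i = k
        · subst hi
          simpa [x'] using (norm_fst_le w).trans (region_norm hM hsup hw.1)
        · simpa [x', hi] using hx i
      have hg1 : 1 / 4 * γ ^ k ≤ 1 := by
        have := pow_le_one₀ (n := k) hγ0.le hγ1
        linarith
      obtain ⟨S', hS', hfar⟩ := S.refine_cylinders hε hε2 hM hsup hgk hg1 (cen x' (k + 1))
        (hcard _ _ hk) (hM2 k (by omega))
      have heq : 1 / 4 * γ ^ k * (ε / 100) ^ R / 2 = 1 / 4 * γ ^ (k + 1) := by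
        rw [pow_succ, hγ]; ring
      obtain ⟨S'', hS''⟩ : ∃ S'' : Slice X ε N M (1 / 4 * γ ^ (k + 1)), S''.pts = S'.pts :=
        ⟨⟨S'.F, S'.α, S'.norm_le, S'.base, by
          obtain ⟨p, hp, hpa⟩ := S'.top
          exact ⟨p, hp, by rw [← heq]; exact hpa⟩⟩, rfl⟩
      refine ⟨x', Function.update T (k + 1) S''.pts, S'', by simp, hx', ?_, ?_, ?_, ?_⟩
      · intro b hb
        by_cases hb' : b = k + 1
        · subst hb'; simpa using S''.pts_convex
        · simpa [hb'] using hcv b (by omega)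
      · intro b hb i hbi hi
        by_cases hi' : i = k + 1
        · subst hi'
          by_cases hb' : b = k + 1
          · subst hb'; exact subset_rfl
          · simp only [Function.update_self, Function.update_of_ne hb', hS'']
            exact hS'.trans (hT ▸ hnest b (by omega) k (by omega) le_rfl)
        · simp only [Function.update_of_ne hi', Function.update_of_ne (show b ≠ k + 1 by omega)]
          exact hnest b (by omega) i hbi (by omega)
      · intro i hi
        simp only [Function.update_of_ne (show i ≠ k + 1 by omega)]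
        by_cases hi' : i = k
        · subst hi'
          exact ⟨w, hT ▸ hw, by simp [x']⟩
        · obtain ⟨w', hw', he⟩ := hmem i (by omega)
          exact ⟨w', hw', by simpa [x', hi'] using he⟩
      · intro b hb1 hb w' hw' z hz
        by_cases hb' : b = k + 1
        · subst hb'
          simp only [Function.update_self, hS''] at hw'
          exact hfar w' hw' z hz
        · simp only [Function.update_of_ne hb'] at hw'
          refine hav b hb1 (by omega) w' hw' z ?_
          have e : cen x' b = cen x b := by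
            simp only [cen]
            refine congrArg (fun f => Finset.image f univ) (funext fun c => ?_)
            refine Finset.sum_congr rfl fun i _ => ?_
            have : (i : ℕ) ≠ k := by have := i.isLt; omega
            simp [x', this]
          exact e ▸ hz
  obtain ⟨x, T, S, -, hx, hcv, hnest, hmem, hav⟩ := build n le_rfl
  refine ⟨x, hx, fun b hb u v hu hv hu1 hv1 => ?_⟩
  have hb1 : 1 ≤ b := by
    by_contra hcon
    obtain rfl : b = 0 := by omega
    simp at hu1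
  have hex : ∀ i, b ≤ i → i < n → ∃ w ∈ T b, w.1 = x i := fun i h1 h2 => by
    obtain ⟨w, hw, he⟩ := hmem i h2
    exact ⟨w, hnest b hb i h1 (by omega) hw, he⟩
  choose! W hW using hex
  have hv' : ∑ i ∈ Ico b n, v i • W i ∈ T b :=
    (hcv b hb).sum_mem (fun i _ => hv i) hv1
      (fun i hi => (hW i (mem_Ico.1 hi).1 (mem_Ico.1 hi).2).1)
  have hproj : (∑ i ∈ Ico b n, v i • W i).1 = ∑ i ∈ Ico b n, v i • x i := by
    rw [Prod.fst_sum]
    refine Finset.sum_congr rfl fun i hi => ?_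
    rw [Prod.smul_fst, (hW i (mem_Ico.1 hi).1 (mem_Ico.1 hi).2).2]
  have hu01 : ∀ i < b, u i ≤ 1 := fun i hi =>
    (single_le_sum (fun j _ => hu j) (mem_range.2 hi)).trans hu1.le
  let k : Fin b → Fin (q + 1) := fun i => ⟨⌊(q : ℝ) * u i⌋₊, by
    refine Nat.lt_succ_of_le (Nat.floor_le_of_le ?_)
    exact mul_le_of_le_one_right (Nat.cast_nonneg q) (hu01 i i.isLt)⟩
  have hz : (∑ i : Fin b, ((k i : ℝ) / q) • x i) ∈ cen x b :=
    mem_image.2 ⟨k, mem_univ _, rfl⟩
  have hfar := hav b hb1 hb _ hv' _ hz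
  rw [hproj] at hfar
  set z := ∑ i : Fin b, ((k i : ℝ) / q) • x i with hzdef
  have hq0 : (0 : ℝ) < q := lt_of_lt_of_le (by positivity) hq
  have hdiff : ‖∑ i ∈ range b, u i • x i - z‖ ≤ (b : ℝ) / q := by
    rw [← Fin.sum_univ_eq_sum_range (fun i => u i • x i), hzdef, ← Finset.sum_sub_distrib]
    refine (norm_sum_le _ _).trans ?_
    refine (Finset.sum_le_card_nsmul _ _ (1 / (q : ℝ)) fun i _ => ?_).trans (le_of_eq ?_)
    · rw [← sub_smul, norm_smul, Real.norm_eq_abs]
      have h1 : ((k i : ℝ)) ≤ q * u i := Nat.floor_le (mul_nonneg hq0.le (hu i))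
      have h2 : q * u i < (k i : ℝ) + 1 := Nat.lt_floor_add_one _
      have h3 : |u i - (k i : ℝ) / q| ≤ 1 / q := by
        have e : u i - (k i : ℝ) / q = (q * u i - k i) / q := by field_simp
        rw [e, abs_div, abs_of_pos hq0, abs_of_nonneg (by linarith)]
        exact div_le_div_of_nonneg_right (by linarith) hq0.le
      calc _ ≤ 1 / (q : ℝ) * 1 := mul_le_mul h3 (hx _) (norm_nonneg _) (by positivity)
        _ = _ := mul_one _
    · simp only [card_univ, Fintype.card_fin, nsmul_eq_mul, mul_one_div]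
  have hbq : (b : ℝ) / q ≤ ε / 16 := by
    rw [div_le_iff₀ hq0]
    rw [div_le_iff₀ hε] at hq
    have : (b : ℝ) ≤ n := Nat.cast_le.2 hb
    linarith
  have := norm_sub_le_norm_sub_add_norm_sub (∑ i ∈ Ico b n, v i • x i) (∑ i ∈ range b, u i • x i) z
  rw [norm_sub_rev (∑ i ∈ Ico b n, v i • x i) (∑ i ∈ range b, u i • x i)] at this
  linarith

end Vale.Agent.P125.Full
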