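import Vale.Agent.P125.Full.Defs

/-!
P125: random strictly increasing maps with approximately spreading laws.

Construction by induction on `m`: `h (X, Z, r) i = X + Z (h' r i)` where `X` is uniform on a huge
interval and the values `Z a` are independent, uniform on `[R^(a+1), 2 R^(a+1))`.  The law of the
image of an increasing `(m+1)`-tuple then depends, up to a small error in total variation, only on
the law of the `h'`-image of its last `m` entries (translate `X` by `Z` of the first entry, and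
then translate each `Z` of a later entry by it).
-/

namespace Vale.Agent.P125.Full

open Finset

namespace SpreadLawAux

/-- An injective self map changes a sum of a bounded function only by the number of escapes. -/
lemma sum_shift {β : Type*} [DecidableEq β] (s : Finset β) (T : β → β)
    (hT : Set.InjOn T s) (f : β → ℝ) (hf : ∀ x, |f x| ≤ 1) :
    |∑ x ∈ s, f (T x) - ∑ x ∈ s, f x| ≤ 2 * #(s.filter fun x => T x ∉ s) := by
  have hc : #(s.image T) = #s := card_image_of_injOn hT
  have hsub : s.image T \ s ⊆ (s.filter fun x => T x ∉ s).image T := by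
    intro y hy
    simp only [mem_sdiff, mem_image, mem_filter] at hy ⊢
    obtain ⟨⟨x, hx, rfl⟩, hn⟩ := hy
    exact ⟨x, ⟨hx, hn⟩, rfl⟩
  have h1 : (#(s.image T \ s) : ℝ) ≤ #(s.filter fun x => T x ∉ s) := by
    exact_mod_cast (card_le_card hsub).trans card_image_le
  have h2 : #(s \ s.image T) = #(s.image T \ s) := card_sdiff_comm hc.symm
  have hb : ∀ t : Finset β, |∑ x ∈ t, f x| ≤ #t := by
    intro t
    calc |∑ x ∈ t, f x| ≤ ∑ x ∈ t, |f x| := abs_sum_le_sum_abs _ _
      _ ≤ ∑ _x ∈ t, (1 : ℝ) := sum_le_sum fun x _ => hf x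
      _ = #t := by simp
  rw [← sum_image hT, ← sum_sdiff_sub_sum_sdiff]
  have := hb (s.image T \ s)
  have h3 := hb (s \ s.image T)
  rw [h2] at h3
  calc |∑ x ∈ s.image T \ s, f x - ∑ x ∈ s \ s.image T, f x|
      ≤ |∑ x ∈ s.image T \ s, f x| + |∑ x ∈ s \ s.image T, f x| := abs_sub _ _
    _ ≤ _ := by linarith

/-- The values of `Z`, extended beyond the finite range. -/
def ext (R A : ℕ) (Z : Fin A → ℕ) (a : ℕ) : ℕ :=
  if h : a < A then Z ⟨a, h⟩ else R ^ (a + 1)

/-- The range of `Z`. -/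
def box (R A : ℕ) : Finset (Fin A → ℕ) :=
  Fintype.piFinset fun a => Ico (R ^ ((a : ℕ) + 1)) (2 * R ^ ((a : ℕ) + 1))

/-- The range of `(X, Z)`. -/
def base (L R A : ℕ) : Finset (ℕ × (Fin A → ℕ)) := range L ×ˢ box R A

lemma ext_mem {R A : ℕ} (hR : 1 ≤ R) {Z : Fin A → ℕ} (hZ : Z ∈ box R A) (a : ℕ) :
    R ^ (a + 1) ≤ ext R A Z a ∧ ext R A Z a < 2 * R ^ (a + 1) := by
  have hp : 0 < R ^ (a + 1) := Nat.pow_pos hR
  unfold ext
  split_ifs with h
  · have := Fintype.mem_piFinset.1 hZ ⟨a, h⟩
    simpa using this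
  · omega

lemma ext_strictMono {R A : ℕ} (hR : 2 ≤ R) {Z : Fin A → ℕ} (hZ : Z ∈ box R A) :
    StrictMono (ext R A Z) := by
  refine strictMono_nat_of_lt_succ fun a => ?_
  have h1 := (ext_mem (by omega) hZ a).2
  have h2 := (ext_mem (by omega) hZ (a + 1)).1
  have h3 : 2 * R ^ (a + 1) ≤ R ^ (a + 1 + 1) := by
    rw [pow_succ R (a + 1), mul_comm 2]
    exact Nat.mul_le_mul_left _ hR
  omega

lemma card_box (R A : ℕ) : #(box R A) = ∏ a : Fin A, R ^ ((a : ℕ) + 1) := by
  rw [box, Fintype.card_piFinset]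
  refine prod_congr rfl fun a _ => ?_
  simp only [Nat.card_Ico]
  omega

/-- Few `Z` have a given coordinate close to the lower end. -/
lemma card_low {R A : ℕ} (hR : 1 ≤ R) (b : Fin A) {a₀ : ℕ} (ha : a₀ < (b : ℕ)) :
    R * #((box R A).filter fun Z => Z b < R ^ ((b : ℕ) + 1) + 2 * R ^ (a₀ + 1)) ≤
      2 * #(box R A) := by
  set N : Fin A → Finset ℕ :=
    fun a => Ico (R ^ ((a : ℕ) + 1)) (2 * R ^ ((a : ℕ) + 1)) with hN
  set I := Ico (R ^ ((b : ℕ) + 1)) (R ^ ((b : ℕ) + 1) + 2 * R ^ (a₀ + 1)) with hI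
  have hsub : ((box R A).filter fun Z => Z b < R ^ ((b : ℕ) + 1) + 2 * R ^ (a₀ + 1)) ⊆
      Fintype.piFinset (Function.update N b I) := by
    intro Z hZ
    obtain ⟨hZ, hb⟩ := mem_filter.1 hZ
    have hZ' := Fintype.mem_piFinset.1 hZ
    refine Fintype.mem_piFinset.2 fun a => ?_
    rcases eq_or_ne a b with rfl | hne
    · rw [Function.update_self]
      exact mem_Ico.2 ⟨(mem_Ico.1 (hZ' a)).1, hb⟩
    · rw [Function.update_of_ne hne]
      exact hZ' a
  have hcb : #(box R A) = #(N b) * ∏ a ∈ univ.erase b, #(N a) := by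
    rw [mul_prod_erase univ (fun a => #(N a)) (mem_univ b), box, Fintype.card_piFinset]
  have hcu : #(Fintype.piFinset (Function.update N b I)) =
      #I * ∏ a ∈ univ.erase b, #(N a) := by
    rw [Fintype.card_piFinset, ← mul_prod_erase univ _ (mem_univ b), Function.update_self]
    congr 1
    exact prod_congr rfl fun a ha => by rw [Function.update_of_ne (mem_erase.1 ha).1]
  refine (Nat.mul_le_mul_left R ((card_le_card hsub).trans_eq hcu)).trans ?_
  rw [hcb, ← mul_assoc, ← mul_assoc]
  refine Nat.mul_le_mul_right _ ?_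
  have hp : R * R ^ (a₀ + 1) ≤ R ^ ((b : ℕ) + 1) := by
    rw [mul_comm, ← pow_succ]
    exact Nat.pow_le_pow_right hR (by omega)
  simp only [hI, hN, Nat.card_Ico, Nat.add_sub_cancel_left, two_mul]
  rw [Nat.mul_add]
  omega

/-- The image of an increasing tuple, up to a small error, forgets its first entry. -/
lemma forget_first {m L R A : ℕ} (hR : 2 ≤ R) (hL : 1 ≤ L) (a : Fin (m + 1) → ℕ)
    (ha : StrictMono a) (hA : ∀ i, a i < A) (F : (Fin (m + 1) → ℕ) → ℝ) (hF : ∀ c, |F c| ≤ 1) :
    |(∑ x ∈ base L R A, F fun i => x.1 + ext R A x.2 (a i)) / #(base L R A) -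
      (∑ x ∈ base L R A, F (Fin.cons x.1 fun l => x.1 + ext R A x.2 (a l.succ))) /
        #(base L R A)| ≤ 2 * (2 * (R : ℝ) ^ A / L + 2 * m / R) := by
  classical
  let b0 : Fin A := ⟨a 0, hA 0⟩
  let bs : Fin m → Fin A := fun l => ⟨a l.succ, hA l.succ⟩
  let T : ℕ × (Fin A → ℕ) → ℕ × (Fin A → ℕ) := fun x =>
    (x.1 + x.2 b0, fun b => if ∃ l, bs l = b then x.2 b - x.2 b0 else x.2 b)
  have hlt : ∀ l, a 0 < a (Fin.succ l) := fun l => ha (Fin.succ_pos l)
  have hb0 : ¬ ∃ l, bs l = b0 := by
    rintro ⟨l, hl⟩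
    have := congrArg Fin.val hl
    exact (hlt l).ne' this
  have hle : ∀ x ∈ base L R A, ∀ l, x.2 b0 ≤ x.2 (bs l) := by
    intro x hx l
    have := (ext_strictMono hR (mem_product.1 hx).2 (hlt l)).le
    simpa [ext, hA, b0, bs] using this
  have hinj : Set.InjOn T (base L R A) := by
    intro x hx y hy h
    have h2 : ∀ b, (T x).2 b = (T y).2 b := fun b => by rw [h]
    have h0 : x.2 b0 = y.2 b0 := by
      have := h2 b0
      simpa [T, hb0] using this
    refine Prod.ext ?_ (funext fun b => ?_)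
    · have : (T x).1 = (T y).1 := by rw [h]
      simp only [T] at this
      omega
    · have := h2 b
      simp only [T] at this
      split_ifs at this with hb
      · obtain ⟨l, rfl⟩ := hb
        have := hle x hx l
        have := hle y hy l
        omega
      · exact this
  let Φ : ℕ × (Fin A → ℕ) → ℝ := fun x =>
    F (Fin.cons x.1 fun l => x.1 + ext R A x.2 (a l.succ))
  have heq : ∀ x ∈ base L R A, Φ (T x) = F fun i => x.1 + ext R A x.2 (a i) := by
    intro x hx
    simp only [Φ]
    congr 1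
    funext i
    refine Fin.cases ?_ (fun l => ?_) i
    · simp [T, ext, hA, b0]
    · have := hle x hx l
      have he : ∃ k, bs k = bs l := ⟨l, rfl⟩
      simp only [Fin.cons_succ, ext, dif_pos (hA l.succ), T]
      show x.1 + x.2 b0 + (if ∃ k, bs k = bs l then x.2 (bs l) - x.2 b0 else x.2 (bs l)) =
        x.1 + x.2 (bs l)
      rw [if_pos he]
      omega
  have hshift := sum_shift (base L R A) T hinj Φ fun x => hF _
  rw [sum_congr rfl heq] at hshift
  -- the exceptional set
  let E₀ := Ico (L - 2 * R ^ A) L ×ˢ box R A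
  let El : Fin m → Finset (ℕ × (Fin A → ℕ)) := fun l =>
    range L ×ˢ ((box R A).filter fun Z => Z (bs l) < R ^ ((bs l : ℕ) + 1) + 2 * R ^ (a 0 + 1))
  have hbad : (base L R A).filter (fun x => T x ∉ base L R A) ⊆ E₀ ∪ univ.biUnion El := by
    intro x hx
    obtain ⟨hx, hn⟩ := mem_filter.1 hx
    obtain ⟨hX, hZ⟩ := mem_product.1 hx
    by_contra hE
    simp only [mem_union, mem_biUnion, mem_univ, true_and, not_or, not_exists, E₀, El,
      mem_product, mem_filter, hX, hZ, and_true, mem_Ico, mem_range.1 hX, not_le, not_lt] at hE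
    apply hn
    have hZ' := fun b => mem_Ico.1 (Fintype.mem_piFinset.1 hZ b)
    have hv : x.2 b0 < 2 * R ^ (a 0 + 1) := (hZ' b0).2
    have hv' : 2 * R ^ (a 0 + 1) ≤ 2 * R ^ A :=
      Nat.mul_le_mul_left _ (Nat.pow_le_pow_right (by omega) (hA 0))
    refine mem_product.2 ⟨mem_range.2 ?_, Fintype.mem_piFinset.2 fun b => mem_Ico.2 ?_⟩
    · have := hE.1
      simp only [T]
      omega
    · simp only [T]
      split_ifs with hb
      · obtain ⟨l, rfl⟩ := hb
        have := hE.2 l
        have := hZ' (bs l)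
        omega
      · exact hZ' b
  have hcard : (#((base L R A).filter fun x => T x ∉ base L R A) : ℝ) ≤
      2 * (R : ℝ) ^ A * #(box R A) + m * (L * (2 * #(box R A) / R)) := by
    have h1 := (Nat.cast_le (α := ℝ)).2 ((card_le_card hbad).trans (card_union_le _ _))
    rw [Nat.cast_add] at h1
    refine h1.trans (add_le_add ?_ ?_)
    · have : #E₀ ≤ 2 * R ^ A * #(box R A) := by
        simp only [E₀, card_product, Nat.card_Ico]
        exact Nat.mul_le_mul_right _ (by omega)
      exact_mod_cast this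
    · calc (#(univ.biUnion El) : ℝ) ≤ ∑ l, (#(El l) : ℝ) := by exact_mod_cast card_biUnion_le
        _ ≤ ∑ _l : Fin m, (L : ℝ) * (2 * #(box R A) / R) := by
          refine sum_le_sum fun l _ => ?_
          have := card_low (R := R) (by omega) (bs l) (a₀ := a 0) (hlt l)
          simp only [El, card_product, card_range, Nat.cast_mul]
          refine mul_le_mul_of_nonneg_left ?_ (by positivity)
          rw [le_div_iff₀ (by exact_mod_cast (by omega : 0 < R)), mul_comm]
          exact_mod_cast this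
        _ = _ := by simp
  have hB : (#(base L R A) : ℝ) = L * #(box R A) := by simp [base]
  have hbox : (0 : ℝ) < #(box R A) := by
    rw [card_box]
    exact_mod_cast prod_pos fun a _ => Nat.pow_pos (by omega)
  have hL' : (0 : ℝ) < L := by exact_mod_cast hL
  rw [← sub_div, abs_div, Nat.abs_cast, hB,
    div_le_iff₀ (by positivity)]
  refine (hshift.trans (mul_le_mul_of_nonneg_left hcard (by norm_num))).trans_eq ?_
  field_simp

end SpreadLawAux

open SpreadLawAux in
theorem exists_spreading_law (m n : ℕ) {ε : ℝ} (hε : 0 < ε) :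
    ∃ (ι : Type) (_ : Fintype ι) (_ : Nonempty ι) (h : ι → ℕ → ℕ),
      (∀ r, StrictMono (h r)) ∧
      ∀ φ ψ : Fin m → ℕ, StrictMono φ → StrictMono ψ → (∀ i, φ i < n) → (∀ i, ψ i < n) →
        ∀ F : (Fin m → ℕ) → ℝ, (∀ c, |F c| ≤ 1) →
          |(∑ r, F (h r ∘ φ)) / Fintype.card ι - (∑ r, F (h r ∘ ψ)) / Fintype.card ι| ≤ ε := by
  induction m generalizing ε with
  | zero =>
    refine ⟨Unit, inferInstance, inferInstance, fun _ => id, fun _ => strictMono_id, ?_⟩
    intro φ ψ _ _ _ _ F _
    rw [Subsingleton.elim φ ψ]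
    simp [hε.le]
  | succ m ih =>
    obtain ⟨ι', _, _, h', hmono, hlaw⟩ := ih (ε := ε / 2) (by positivity)
    let A : ℕ := ((univ : Finset ι') ×ˢ range n).sup fun q => h' q.1 q.2 + 1
    have hA : ∀ r, ∀ i < n, h' r i < A := fun r i hi =>
      Nat.lt_of_succ_le <| le_sup (f := fun q : ι' × ℕ => h' q.1 q.2 + 1) (b := (r, i))
        (mem_product.2 ⟨mem_univ _, mem_range.2 hi⟩)
    obtain ⟨R, hR⟩ := exists_nat_gt (2 + 2 * m * (16 / ε))
    have hpos : (0 : ℝ) < 16 / ε := by positivity
    have hR2 : 2 ≤ R := by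
      have : (2 : ℝ) ≤ R := by nlinarith [Nat.cast_nonneg (α := ℝ) m]
      exact_mod_cast this
    obtain ⟨L, hL⟩ := exists_nat_gt (1 + 2 * (R : ℝ) ^ A * (16 / ε))
    have hL1 : 1 ≤ L := by
      have : (1 : ℝ) ≤ L := by nlinarith [pow_nonneg (Nat.cast_nonneg (α := ℝ) R) A]
      exact_mod_cast this
    have hne : (base L R A).Nonempty := by
      refine Finset.Nonempty.product ?_ (Fintype.piFinset_nonempty.2 fun a => ?_)
      · exact nonempty_range_iff.2 (by omega)
      · have : 0 < R ^ ((a : ℕ) + 1) := Nat.pow_pos (by omega)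
        exact nonempty_Ico.2 (by omega)
    have : Nonempty {x // x ∈ base L R A} := hne.to_subtype
    refine ⟨{x // x ∈ base L R A} × ι', inferInstance, inferInstance,
      fun q i => q.1.1.1 + ext R A q.1.1.2 (h' q.2 i),
      fun q => ((ext_strictMono hR2 (mem_product.1 q.1.2).2).comp (hmono q.2)).const_add _, ?_⟩
    intro φ ψ hφ hψ hφn hψn F hF
    let G : (Fin m → ℕ) → ℝ := fun c =>
      (∑ x ∈ base L R A, F (Fin.cons x.1 fun l => x.1 + ext R A x.2 (c l))) / #(base L R A)
    have hG : ∀ c, |G c| ≤ 1 := by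
      intro c
      have hp : (0 : ℝ) < #(base L R A) := by exact_mod_cast hne.card_pos
      rw [abs_div, Nat.abs_cast, div_le_one hp]
      refine (abs_sum_le_sum_abs _ _).trans ((sum_le_sum fun x _ => hF _).trans ?_)
      simp
    set δ : ℝ := 2 * (2 * (R : ℝ) ^ A / L + 2 * m / R) with hδ
    have key : ∀ θ : Fin (m + 1) → ℕ, StrictMono θ → (∀ i, θ i < n) →
        |(∑ q : {x // x ∈ base L R A} × ι',
            F ((fun i => q.1.1.1 + ext R A q.1.1.2 (h' q.2 i)) ∘ θ)) /
          Fintype.card ({x // x ∈ base L R A} × ι') -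
          (∑ r, G (h' r ∘ θ ∘ Fin.succ)) / Fintype.card ι'| ≤ δ := by
      intro θ hθ hθn
      have hc : (0 : ℝ) < Fintype.card ι' := by exact_mod_cast Fintype.card_pos
      have e1 : (∑ q : {x // x ∈ base L R A} × ι',
            F ((fun i => q.1.1.1 + ext R A q.1.1.2 (h' q.2 i)) ∘ θ)) /
          Fintype.card ({x // x ∈ base L R A} × ι') =
          (∑ r, (∑ x ∈ base L R A, F fun i => x.1 + ext R A x.2 (h' r (θ i))) /
            #(base L R A)) / Fintype.card ι' := by
        rw [Fintype.card_prod, Fintype.card_coe, Nat.cast_mul, ← sum_div, div_div,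
          Fintype.sum_prod_type, sum_comm]
        congr 1
        refine sum_congr rfl fun r _ => ?_
        exact sum_coe_sort (base L R A) fun x => F fun i => x.1 + ext R A x.2 (h' r (θ i))
      rw [e1, ← sub_div, ← sum_sub_distrib, abs_div, Nat.abs_cast, div_le_iff₀ hc]
      refine (abs_sum_le_sum_abs _ _).trans ((sum_le_card_nsmul _ _ δ fun r _ => ?_).trans_eq ?_)
      · exact forget_first hR2 hL1 (h' r ∘ θ) ((hmono r).comp hθ) (fun i => hA r _ (hθn i)) F hF
      · rw [card_univ, nsmul_eq_mul, mul_comm]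
    have hδε : δ ≤ ε / 4 := by
      have hL0 : (0 : ℝ) < L := by exact_mod_cast hL1
      have hR0 : (0 : ℝ) < R := by exact_mod_cast (by omega : 0 < R)
      have he : ε * (16 / ε) = 16 := by field_simp
      have a1 : 2 * (R : ℝ) ^ A / L ≤ ε / 16 := by
        rw [div_le_div_iff₀ hL0 (by norm_num)]
        nlinarith
      have a2 : 2 * (m : ℝ) / R ≤ ε / 16 := by
        rw [div_le_div_iff₀ hR0 (by norm_num)]
        nlinarith
      rw [hδ]
      linarith
    have b1 := abs_le.1 (key φ hφ hφn)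
    have b2 := abs_le.1 (key ψ hψ hψn)
    have b3 := abs_le.1 (hlaw (φ ∘ Fin.succ) (ψ ∘ Fin.succ) (hφ.comp Fin.strictMono_succ)
      (hψ.comp Fin.strictMono_succ) (fun i => hφn _) (fun i => hψn _) G hG)
    rw [abs_le]
    constructor <;> linarith

end Vale.Agent.P125.Full
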