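import Vale.Agent.P125.Full.Geometry
import Vale.Agent.P125.Full.SpreadLaw
import Vale.Agent.P125.Full.Lift
import Vale.Agent.P125.Full.Renorm
import Vale.Agent.P125.Full.Separate
import Vale.Agent.P125.Full.Limit

/-!
P125: nontrivial Markov type implies superreflexivity.
-/

namespace Vale.Agent.P125.Full

open Finset

section Network

variable {d m : ℕ} {ι : Type} [Fintype ι] (h : ι → ℕ → ℕ)

/-- The tuple of the first `m` values. -/
def cut (m : ℕ) (c : ℕ → ℕ) : Fin m → ℕ := fun i => c i

/-- All tuples that occur as vertices. -/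
def verts (d m : ℕ) (h : ι → ℕ → ℕ) : Finset (Fin m → ℕ) :=
  (univ : Finset (Dart d ι)).image fun e => cut m (Dart.srcF h e)

lemma cut_mem (e : Dart d ι) : cut m (Dart.srcF h e) ∈ verts d m h :=
  mem_image.2 ⟨e, mem_univ _, rfl⟩

lemma cut_mem' (e : Dart d ι) : cut m (Dart.tgtF h e) ∈ verts d m h := by
  rw [← Dart.srcF_rev]; exact cut_mem h _

/-- The weighted graph of the random periodic pattern. -/
noncomputable def network (m : ℕ) [Nonempty (Dart d ι)] :
    Darts {c // c ∈ verts d m h} (Dart d ι) where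
  src e := ⟨cut m (Dart.srcF h e), cut_mem h e⟩
  tgt e := ⟨cut m (Dart.tgtF h e), cut_mem' h e⟩
  rev := Dart.rev
  w _ := (Fintype.card (Dart d ι) : ℝ)⁻¹
  rev_rev := Dart.rev_rev
  src_rev e := by simp only [Dart.srcF_rev]
  w_rev _ := rfl
  w_nonneg _ := by positivity
  w_sum := by
    simp only [sum_const, card_univ, nsmul_eq_mul]
    exact mul_inv_cancel₀ (Nat.cast_ne_zero.2 Fintype.card_ne_zero)

variable [Nonempty (Dart d ι)]

/-- Weight of the darts leaving a vertex by a given slot. -/
noncomputable def slotMass (x : {c // c ∈ verts d m h}) (b : Fin d) : ℝ :=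
  ∑ e, if (network h m).src e = x ∧ Dart.out e = b then (network h m).w e else 0

lemma mass_eq_sum_slot (x : {c // c ∈ verts d m h}) :
    (network h m).mass x = ∑ b, slotMass h x b := by
  simp only [Darts.mass, slotMass]
  rw [sum_comm]
  refine sum_congr rfl fun e _ => ?_
  by_cases hx : (network h m).src e = x
  · simp [hx]
  · simp [hx]

/-- The slots are nearly uniform, given the tuple, in `L¹`. -/
lemma slots_uniform {N : ℕ} {ε : ℝ}
    (hm : m ≤ N) (hP : ∀ j : Fin d, ∀ i : Fin m, Px d (i + (d - j)) < N)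
    (hP' : ∀ j : Fin d, ∀ i : Fin m, Py d (i + (d - 1 - j)) < N) (hd : 2 ≤ d)
    (hlaw : ∀ φ ψ : Fin m → ℕ, StrictMono φ → StrictMono ψ → (∀ i, φ i < N) → (∀ i, ψ i < N) →
        ∀ F : (Fin m → ℕ) → ℝ, (∀ c, |F c| ≤ 1) →
          |(∑ r, F (h r ∘ φ)) / Fintype.card ι - (∑ r, F (h r ∘ ψ)) / Fintype.card ι| ≤ ε) :
    ∑ x : {c // c ∈ verts d m h}, ∑ b, |slotMass h x b - (network h m).mass x / d| ≤ 2 * ε := by
  rw [sum_comm]
  have hd0 : (0 : ℝ) < d := by exact_mod_cast (by omega : 0 < d)
  refine (sum_le_sum (g := fun _ : Fin d => 2 * ε / d) fun b _ => ?_).trans ?_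
  swap
  · simp only [sum_const, card_univ, Fintype.card_fin, nsmul_eq_mul]
    rw [mul_div_cancel₀ _ hd0.ne']
  set sg : {c // c ∈ verts d m h} → ℝ := fun x =>
    if 0 ≤ slotMass h x b - (network h m).mass x / d then 1 else -1 with hsg
  have habs : ∀ x, |slotMass h x b - (network h m).mass x / d|
      = sg x * (slotMass h x b - (network h m).mass x / d) := by
    intro x
    simp only [hsg]
    split_ifs with c
    · rw [abs_of_nonneg c, one_mul]
    · rw [abs_of_neg (not_le.1 c)]; ring
  let F : (Fin m → ℕ) → ℝ := fun c => if hc : c ∈ verts d m h then sg ⟨c, hc⟩ else 0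
  have hF : ∀ c, |F c| ≤ 1 := by
    intro c
    simp only [F, hsg]
    split_ifs <;> simp
  set Φ : Fin d → ℝ := fun a => ∑ x, sg x * slotMass h x a with hΦ
  set ref : ℝ := (∑ r, F (h r ∘ fun i : Fin m => (i : ℕ))) / Fintype.card ι with href
  have key : ∀ a, |Φ a - ref / d| ≤ ε / d := by
    intro a
    set φ : Fin m → ℕ := fun i => Px d (i + (d - a)) with hφ
    set ψ : Fin m → ℕ := fun i => Py d (i + (d - 1 - a)) with hψ
    have e1 : Φ a
        = ((∑ r, F (h r ∘ φ)) / Fintype.card ι + (∑ r, F (h r ∘ ψ)) / Fintype.card ι)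
          / (2 * d) := by
      have e2 : Φ a = ∑ e : Dart d ι, if Dart.out e = a
          then (Fintype.card (Dart d ι) : ℝ)⁻¹ * F (cut m (Dart.srcF h e)) else 0 := by
        simp only [hΦ, slotMass, mul_sum]
        rw [sum_comm]
        refine sum_congr rfl fun e _ => ?_
        by_cases c : Dart.out e = a
        · simp only [c, and_true, if_true]
          rw [sum_eq_single ((network h m).src e)
            (fun x _ hx => by simp [Ne.symm hx]) (fun hne => absurd (mem_univ _) hne)]
          simp only [if_true, F, dif_pos (cut_mem h e)]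
          exact mul_comm _ _
        · simp [c]
      rw [e2, Fintype.sum_prod_type, Fintype.sum_bool]
      simp only [Fintype.sum_prod_type, Dart.out, Dart.srcF, Bool.false_eq_true, if_true, if_false]
      simp only [sum_ite_eq', mem_univ, if_true]
      rw [show (∑ r : ι, ∑ _j : Fin d, (Fintype.card (Dart d ι) : ℝ)⁻¹ * F (cut m (yF h r a)))
          = (d : ℝ) * ((Fintype.card (Dart d ι) : ℝ)⁻¹ * ∑ r, F (h r ∘ ψ)) by
        simp only [sum_const, card_univ, Fintype.card_fin, nsmul_eq_mul, mul_sum]; rfl]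
      rw [show (∑ r : ι, ∑ j : Fin d, ∑ _j' : Fin d,
          if j = a then (Fintype.card (Dart d ι) : ℝ)⁻¹ * F (cut m (xF h r j)) else 0)
          = (d : ℝ) * ((Fintype.card (Dart d ι) : ℝ)⁻¹ * ∑ r, F (h r ∘ φ)) by
        simp only [sum_const, card_univ, Fintype.card_fin, nsmul_eq_mul, ← mul_sum, sum_ite_eq',
          mem_univ, if_true]; rfl]
      simp only [Fintype.card_prod, Fintype.card_bool, Fintype.card_fin, Nat.cast_mul,
        Nat.cast_ofNat]
      field_simp
      ring
    have b1 : |(∑ r, F (h r ∘ φ)) / Fintype.card ι - ref| ≤ ε :=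
      hlaw φ _ ((Px_strictMono hd).comp fun i j hij => Nat.add_lt_add_right hij _)
        (fun i j hij => hij) (hP a) (fun i => lt_of_lt_of_le i.isLt hm) F hF
    have b2 : |(∑ r, F (h r ∘ ψ)) / Fintype.card ι - ref| ≤ ε :=
      hlaw ψ _ ((Py_strictMono hd).comp fun i j hij => Nat.add_lt_add_right hij _)
        (fun i j hij => hij) (hP' a) (fun i => lt_of_lt_of_le i.isLt hm) F hF
    rw [e1]
    set A₁ := (∑ r, F (h r ∘ φ)) / Fintype.card ι
    set B₁ := (∑ r, F (h r ∘ ψ)) / Fintype.card ι
    rw [show (A₁ + B₁) / (2 * d) - ref / d = ((A₁ - ref) + (B₁ - ref)) / (2 * d) by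
        field_simp; ring, abs_div, abs_of_pos (by positivity : (0 : ℝ) < 2 * d),
      show ε / d = (ε + ε) / (2 * d) by field_simp; ring]
    exact div_le_div_of_nonneg_right ((abs_add_le _ _).trans (add_le_add b1 b2)) (by positivity)
  have hsum : ∑ x, |slotMass h x b - (network h m).mass x / d| = Φ b - (∑ a, Φ a) / d := by
    rw [sum_congr rfl fun x _ => habs x]
    simp only [mul_sub, sum_sub_distrib, hΦ, mass_eq_sum_slot]
    rw [sum_comm (γ := Fin d), sum_div]
    refine congrArg₂ (· - ·) rfl (sum_congr rfl fun x _ => ?_)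
    rw [← mul_sum, mul_div_assoc]
  rw [hsum]
  have htot : |∑ a, (Φ a - ref / d)| ≤ ε :=
    (abs_sum_le_sum_abs _ _).trans ((sum_le_sum fun a _ => key a).trans (le_of_eq (by
      simp only [sum_const, card_univ, Fintype.card_fin, nsmul_eq_mul]
      field_simp)))
  simp only [sum_sub_distrib, sum_const, card_univ, Fintype.card_fin, nsmul_eq_mul] at htot
  rw [mul_div_cancel₀ _ hd0.ne'] at htot
  have kb := key b
  rw [abs_le] at kb htot
  have k1 : (ref - ε) / d ≤ (∑ a, Φ a) / d :=
    div_le_div_of_nonneg_right (by linarith [htot.1]) hd0.le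
  rw [sub_div] at k1
  have k2 : 2 * ε / d = ε / d + ε / d := by ring
  linarith [kb.2]

instance : DecidableRel (Good (d := d) (ι := ι)) := fun e e' => by unfold Good; infer_instance

/-- Consecutive darts rarely backtrack. -/
lemma backtrack_le {ε : ℝ}
    (hu : ∑ x : {c // c ∈ verts d m h}, ∑ b : Fin d,
      |slotMass (d := d) (m := m) h x b - (network (d := d) h m).mass x / d| ≤ ε) :
    ∑ e : Dart d ι, ∑ e' : Dart d ι,
      (if Good e e' then 0 else (network h m).w e * (network h m).next e e')
      ≤ 3 / d + ε := by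
  set D := network (d := d) h m with hD
  set dev : {c // c ∈ verts d m h} → ℝ := fun x => ∑ b, |slotMass h x b - D.mass x / d| with hdev
  have hmass : ∀ e, D.w e ≤ D.mass (D.src e) := fun e =>
    (le_of_eq (by simp)).trans (single_le_sum
      (f := fun e' => if D.src e' = D.src e then D.w e' else 0)
      (fun e' _ => by split_ifs <;> [exact D.w_nonneg _; exact le_rfl]) (mem_univ e))
  have hinner : ∀ e, ∑ e', (if Good (Dart.rev e) e' then 0
      else D.next (Dart.rev e) e') ≤ 3 / d + dev (D.src e) / D.mass (D.src e) := by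
    intro e
    have hwpos : 0 < D.w e := inv_pos.2 (by exact_mod_cast Fintype.card_pos)
    have hpos : 0 < D.mass (D.src e) := hwpos.trans_le (hmass e)
    set x := D.src e with hx
    have htgt : D.tgt (Dart.rev e) = x := by
      rw [hx]; exact Subtype.ext (congrArg (cut m) (Dart.tgtF_rev h e))
    let B : Finset (Fin d) := univ.filter fun b : Fin d =>
      ¬ ((b : ℕ) ≠ Dart.out e ∧ (b : ℕ) ≠ ((Dart.out e : ℕ) + 1) % d
        ∧ ((b : ℕ) + 1) % d ≠ Dart.out e)
    have hB : B.card ≤ 3 := by
      have hs : B.image Fin.val ⊆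
          {(Dart.out e : ℕ), ((Dart.out e : ℕ) + 1) % d, ((Dart.out e : ℕ) + (d - 1)) % d} := by
        intro v hv
        obtain ⟨b, hb, rfl⟩ := mem_image.1 hv
        simp only [B, mem_filter, mem_univ, true_and, not_and_or, not_not] at hb
        simp only [mem_insert, mem_singleton]
        rcases hb with c | c | c
        · exact Or.inl c
        · exact Or.inr (Or.inl c)
        · refine Or.inr (Or.inr ?_)
          rw [← c]
          rcases Nat.lt_or_ge ((b : ℕ) + 1) d with q | q
          · rw [Nat.mod_eq_of_lt q, show (b : ℕ) + 1 + (d - 1) = d + b by omega,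
              Nat.add_mod_left, Nat.mod_eq_of_lt b.isLt]
          · rw [show (b : ℕ) + 1 = d by omega, Nat.mod_self,
              Nat.mod_eq_of_lt (by omega : 0 + (d - 1) < d)]
            omega
      have := card_le_card hs
      rw [card_image_of_injective _ Fin.val_injective] at this
      exact this.trans card_le_three
    have e1 : ∑ e', (if Good (Dart.rev e) e' then 0 else D.next (Dart.rev e) e')
        = (∑ b ∈ B, slotMass h x b) / D.mass x := by
      simp only [slotMass]
      rw [sum_comm, sum_div]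
      refine sum_congr rfl fun e' _ => ?_
      simp only [Good, Dart.inn_rev, Darts.next, htgt, ← hD]
      by_cases c : D.src e' = x
      · simp only [c, true_and, if_true, sum_ite_eq, B, mem_filter, mem_univ]
        split_ifs <;> first | rfl | simp
      · simp [c]
    rw [e1, div_le_iff₀ hpos]
    have hsum : ∑ b ∈ B, slotMass h x b ≤ ∑ b ∈ B, (D.mass x / d) + dev x := by
      rw [← sub_le_iff_le_add', ← sum_sub_distrib]
      exact (sum_le_sum fun b _ => le_abs_self _).trans
        (sum_le_sum_of_subset_of_nonneg (subset_univ _) fun b _ _ => abs_nonneg _)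
    refine hsum.trans ?_
    rw [sum_const, nsmul_eq_mul, add_mul, div_mul_cancel₀ _ hpos.ne']
    refine add_le_add ?_ le_rfl
    calc (B.card : ℝ) * (D.mass x / d) ≤ 3 * (D.mass x / d) := by
          refine mul_le_mul_of_nonneg_right (by exact_mod_cast hB) ?_
          positivity
      _ = 3 / d * D.mass x := by ring
  have e0 : ∑ e, ∑ e', (if Good e e' then 0 else D.w e * D.next e e')
      = ∑ e, D.w e * ∑ e', (if Good (Dart.rev e) e' then 0 else D.next (Dart.rev e) e') := by
    rw [← Equiv.sum_comp (Function.Involutive.toPerm _ Dart.rev_rev)]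
    refine sum_congr rfl fun e _ => ?_
    simp only [mul_sum, mul_ite, mul_zero]
    rfl
  rw [e0]
  refine (sum_le_sum fun e _ => mul_le_mul_of_nonneg_left (hinner e) (D.w_nonneg e)).trans ?_
  simp only [mul_add, sum_add_distrib, ← sum_mul, D.w_sum, one_mul, add_le_add_iff_left]
  refine le_trans ?_ hu
  rw [← sum_fiberwise (univ : Finset (Dart d ι)) D.src]
  refine sum_le_sum fun x _ => ?_
  have hsum : ∑ e with D.src e = x, D.w e * (dev (D.src e) / D.mass (D.src e))
      = D.mass x * (dev x / D.mass x) := by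
    have hm : D.mass x = ∑ e with D.src e = x, D.w e := by rw [Darts.mass, sum_filter]
    conv_rhs => arg 1; rw [hm]
    rw [sum_mul]
    exact sum_congr rfl fun e he => by rw [(mem_filter.1 he).2]
  rw [hsum]
  rcases eq_or_ne (D.mass x) 0 with c | c
  · rw [c, zero_mul]; exact sum_nonneg fun b _ => abs_nonneg _
  · rw [mul_div_cancel₀ _ c]

end Network

lemma list_sum_eq {E W : Type*} [AddCommMonoid W] (u : E → W) (e₀ : E) (l : List E) :
    (l.map u).sum = ∑ s ∈ range l.length, u (l.getD s e₀) := by
  induction l with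
  | nil => simp
  | cons a l ih => simp [sum_range_succ', ih, add_comm]

/-- A spreading seminorm with separated convex hulls has no nontrivial Markov type. -/
theorem no_markov_spreading (S₀ : Spreading) {p K : ℝ} (hp : 1 < p) (hK : 0 ≤ K)
    (hMT₀ : MT (fun c => S₀.N c) p K) : False := by
  have hη := S₀.η_pos
  set c : ℝ := S₀.η / (S₀.η + 2) / 4 with hc
  have hcpos : 0 < c := by positivity
  obtain ⟨T, hT, hbig⟩ : ∃ T : ℕ, 1 ≤ T ∧ 2 * K ^ p / c ^ p < (T : ℝ) ^ (p - 1) := by
    have ht : Filter.Tendsto (fun T : ℕ => (T : ℝ) ^ (p - 1)) Filter.atTop Filter.atTop :=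
      (tendsto_rpow_atTop (by linarith)).comp tendsto_natCast_atTop_atTop
    obtain ⟨T, h1, h2⟩ := ((Filter.eventually_ge_atTop 1).and
      (ht.eventually_gt_atTop (2 * K ^ p / c ^ p))).exists
    exact ⟨T, h1, h2⟩
  obtain ⟨n, rfl⟩ : ∃ n, T = n + 1 := ⟨T - 1, by omega⟩
  set T := n + 1 with hTdef
  set d := 8 * T with hd
  set k' := 2 * T + 6 with hk'
  set k := 2 * k' with hk
  obtain ⟨m₀, hm₀, hq⟩ := S₀.exists_block (T := T) (k := k') (by omega) (by omega)
  set S := S₀.block m₀ hm₀ with hS
  have hMT : MT (fun v => S.N v) p K := S₀.MT_block m₀ hm₀ hMT₀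
  set A := S.q 1 k with hA
  have hqA : A ≤ 4 * S.q T k' := (S.q_double k').trans (by linarith)
  have hApos : 0 < A := lt_of_lt_of_le S.η_pos (S.η_le_q Nat.one_pos (by omega))
  set m := k * d + 1 with hm
  set ε : ℝ := 1 / (16 * T) with hε
  obtain ⟨ι, _, _, h, hh, hlaw⟩ := exists_spreading_law m ((k + 2) * (2 * (d - 1)))
    (show 0 < ε by positivity)
  have : Nonempty (Fin d) := ⟨⟨0, by omega⟩⟩
  have hPxy : ∀ i, i ≤ (k + 1) * d →
      Px d i < (k + 2) * (2 * (d - 1)) ∧ Py d i < (k + 2) * (2 * (d - 1)) := by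
    intro i hi
    have h1 : i / d ≤ k + 1 := by
      rw [Nat.div_le_iff_le_mul_add_pred (by omega)]
      rw [mul_comm d]
      omega
    have h2 := Nat.mul_le_mul_right (2 * (d - 1)) h1
    have h3 := Nat.mod_lt i (show 0 < d by omega)
    rw [show (k + 2) * (2 * (d - 1)) = (k + 1) * (2 * (d - 1)) + 2 * (d - 1) by ring]
    simp only [Px, Py]
    constructor <;> [split_ifs; skip] <;> omega
  have hu := slots_uniform (m := m) h (N := (k + 2) * (2 * (d - 1)))
    (by
      have : k * d + d * 2 ≤ (k + 2) * (2 * (d - 1)) := by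
        calc k * d + d * 2 = (k + 2) * d := by ring
          _ ≤ _ := Nat.mul_le_mul_left _ (by omega)
      omega)
    (fun j i => (hPxy _ (by have := i.isLt; rw [Nat.add_mul, one_mul]; omega)).1)
    (fun j i => (hPxy _ (by have := i.isLt; rw [Nat.add_mul, one_mul]; omega)).2)
    (by omega) hlaw
  have hbad := backtrack_le h hu
  set D := network (d := d) h m with hD
  set u : Dart d ι → ℕ →₀ ℝ := edgeVec h k with hudef
  have hup := D.markov_paths S.N hp.le hK hMT u (fun e => edgeVec_rev h k e)
    (fun e => N_edgeVec_le (h := h) S (by omega) hh k e) n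
  have hlow := D.good_paths Good hbad n (fun l => S.N (l.map u).sum ^ p)
    (c := (c * T * A) ^ p) (by positivity) (fun l => Real.rpow_nonneg (apply_nonneg _ _) _)
    (by
      intro l hl hchain hcomp
      obtain ⟨e₀⟩ : Nonempty (Dart d ι) := inferInstance
      refine Real.rpow_le_rpow (by positivity) ?_ (by linarith)
      rw [list_sum_eq u e₀, hl]
      have hget : ∀ s (hs : s < T), l.getD s e₀ = l[s]'(by omega) :=
        fun s hs => List.getD_eq_getElem _ _ _
      refine le_trans ?_ (path_lower (k := k) (k' := k') (p := fun s => l.getD s e₀) h S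
        (by omega) hh (by omega) (by omega) (by omega) (fun s hs i hi => ?_) (fun s hs => ?_))
      · rw [show c * T * A = S₀.η / (S₀.η + 2) * ((T : ℝ) * (A / 4)) by rw [hc]; ring]
        refine mul_le_mul_of_nonneg_left (mul_le_mul_of_nonneg_left (by linarith) ?_) ?_
        · positivity
        · exact div_nonneg hη.le (by linarith)
      · have := List.isChain_iff_getElem.1 hcomp s (by omega)
        simp only [hget s (by omega), hget (s + 1) hs]
        exact (congrFun (congrArg Subtype.val this) ⟨i, by omega⟩).symm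
      · simp only [hget s (by omega), hget (s + 1) hs]
        exact List.isChain_iff_getElem.1 hchain s (by omega))
  have hnb : (n : ℝ) * (3 / d + 2 * ε) ≤ 1 / 2 := by
    have hT0 : (0 : ℝ) < T := by positivity
    have hnT : (n : ℝ) ≤ T := by rw [hTdef]; push_cast; linarith
    have : 3 / (d : ℝ) + 2 * ε = 1 / 2 / T := by
      rw [hε, hd]; push_cast; field_simp; ring
    rw [this, mul_div_assoc', div_le_iff₀ hT0]
    linarith
  have main := hlow.trans hup
  have hTR : ((n : ℝ) + 1) = T := by rw [hTdef]; push_cast; rfl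
  rw [hTR, Real.mul_rpow (by positivity) hApos.le] at main
  have hAp : 0 < A ^ p := Real.rpow_pos_of_pos hApos p
  have h1 : (c * T) ^ p / 2 ≤ K ^ p * T := by
    have h0 : 0 ≤ (c * T) ^ p := Real.rpow_nonneg (by positivity) _
    refine le_of_mul_le_mul_right ?_ hAp
    nlinarith [mul_le_mul_of_nonneg_left hnb (mul_nonneg h0 hAp.le)]
  have hTpos : (0 : ℝ) < T := by positivity
  have hsplit : (T : ℝ) ^ p = (T : ℝ) ^ (p - 1) * T := by
    rw [← Real.rpow_add_one hTpos.ne', sub_add_cancel]
  rw [Real.mul_rpow hcpos.le hTpos.le, hsplit] at h1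
  rw [div_lt_iff₀ (Real.rpow_pos_of_pos hcpos p)] at hbig
  nlinarith [mul_lt_mul_of_pos_right hbig hTpos]

/-- Nontrivial Markov type implies an equivalent uniformly convex norm. -/
theorem hasUCNorm_of_markovType {X : Type*} [NormedAddCommGroup X] [NormedSpace ℝ X]
    {p K : ℝ} (hp : 1 < p) (hK : 0 ≤ K) (hMT : MT (fun x : X => ‖x‖) p K) : HasUCNorm X := by
  refine hasUCNorm_of_bounded fun ε hε => ?_
  by_contra hb
  choose x hx hsep using separated_of_not_bounded (X := X) hε hb
  obtain ⟨S, hS⟩ := exists_spreading hp.le (by positivity : (0 : ℝ) < ε / 32) hMT x hx hsep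
  exact no_markov_spreading S hp hK hS

end Vale.Agent.P125.Full
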